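import Vale.Agent.P057Z.Gr.Top
import Vale.Agent.P057Z.Ke.All
import Vale.Agent.P057Z.Km.All

/-! Block Gr, closed. -/

namespace Vale.Agent.P057Z.Gr

theorem gr : GR := gr_of Km.km Ke.eq_ Ke.avg_ Ke.pop

end Vale.Agent.P057Z.Gr
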