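import Vale.Agent.P057Z.Gr.Sk

/-! Block Gr: the rows CHI and LOW. -/

set_option linter.all false

open Finset
open scoped BigOperators

namespace Vale.Agent.P057Z.Gr

open Ke

namespace Chi

theorem exp_le {t : ℝ} (h : t ≤ 1 / 2) : Real.exp t ≤ 2 := by
  have h1 := Real.exp_one_lt_d9
  have h2 : Real.exp t * Real.exp t ≤ Real.exp 1 := by
    rw [← Real.exp_add]
    exact Real.exp_le_exp.2 (by linarith)
  nlinarith [Real.exp_pos t]

theorem ex_c {a b : ℤ} (ha : |a| ≤ 3) (hb0 : b ≠ 0) (hb : |b| ≤ 3) :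
    ∃ c : ℤ, b * c = 6 * a ∧ |c| ≤ 18 := by
  obtain ⟨h1, h2⟩ := abs_le.1 ha
  obtain ⟨h3, h4⟩ := abs_le.1 hb
  refine ⟨6 * a / b, ?_⟩
  interval_cases b <;> first | exact absurd rfl hb0 | (rw [abs_le]; omega)

variable {Q : ℕ} [Fact Q.Prime]

theorem l1_z {ι : Type} [Fintype ι] [DecidableEq ι] {c : ℤ} (hc : |c| ≤ 18) {u : ι → ZMod Q}
    {R : ℝ} (hu : l1 u ≤ R) : l1 ((c : ZMod Q) • u) ≤ 18 * R := by
  have h1 : |(c : ℝ)| ≤ 18 := by exact_mod_cast hc
  exact (l1_int_smul_le c u).trans (mul_le_mul h1 hu (l1_nonneg u) (by norm_num))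

end Chi

open Chi in
theorem chi : CHI where
  pt := by
    intro Q _ n ι _ _ B φ ρ R a b x y hs hQ ha0 ha hb0 hb hρ hφ hR hx hy
    obtain ⟨c1, e1, k1⟩ := ex_c ha hb0 hb
    obtain ⟨c2, e2, k2⟩ := ex_c hb ha0 ha
    have hQ' : (1000 : ℤ) < Q := by exact_mod_cast hQ
    have na : (a : ZMod Q) ≠ 0 := int_ne a ha0 (by linarith)
    have nb : (b : ZMod Q) ≠ 0 := int_ne b hb0 (by linarith)
    have n2 : (2 : ZMod Q) ≠ 0 := by simpa using int_ne (Q := Q) 2 (by norm_num) (by norm_num; linarith)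
    have n12 : (12 : ZMod Q) ≠ 0 := by
      simpa using int_ne (Q := Q) 12 (by norm_num) (by norm_num; linarith)
    have f1 : (c1 : ZMod Q) = 6 * a / b := by
      rw [eq_div_iff nb, mul_comm]
      exact_mod_cast congrArg (Int.cast : ℤ → ZMod Q) e1
    have f2 : (c2 : ZMod Q) = 6 * b / a := by
      rw [eq_div_iff na, mul_comm]
      exact_mod_cast congrArg (Int.cast : ℤ → ZMod Q) e2
    have key : B x y = ((2 * a * b : ℤ) : ZMod Q)⁻¹ • B (a • x + b • y) (a • x + b • y) +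
        -((c1 : ZMod Q) • (12 : ZMod Q)⁻¹ • B x x + (c2 : ZMod Q) • (12 : ZMod Q)⁻¹ • B y y) := by
      simp only [← Int.cast_smul_eq_zsmul (ZMod Q), map_add, map_smul, LinearMap.add_apply,
        LinearMap.smul_apply, hs y x, f1, f2]
      funext i
      simp only [Pi.add_apply, Pi.smul_apply, Pi.neg_apply, smul_eq_mul, Int.cast_mul,
        Int.cast_ofNat]
      field_simp
      ring
    rw [key]
    refine (hφ.lip _ _).trans (mul_le_mul_of_nonneg_right (exp_le ?_) (hφ.pos _).le)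
    rw [l1_neg, one_div, inv_mul_le_iff₀ hρ]
    have := (l1_add_le _ _).trans (add_le_add (l1_z k1 hx) (l1_z k2 hy))
    linarith
  cut := by
    intro α s u v e χ g C S τ θ η hs hθ hτ hu hv he hg hC hχ h
    have h1 : η / 2 - τ * S ^ 3 ≤ 𝔼 x ∈ s, 𝔼 y ∈ s,
        (u x * v y * (e x y * g x y - θ) / 2 - τ * S ^ 3) := by
      simp only [expect_sub_distrib, expect_const hs, ← expect_div]
      linarith
    refine h1.trans (expect_le_expect fun x _ => expect_le_expect fun y _ => ?_)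
    obtain ⟨u0, u1⟩ := hu x
    obtain ⟨v0, v1⟩ := hv y
    obtain ⟨e0, e1⟩ := he x y
    obtain ⟨g0, g1⟩ := hg x y
    have hS : 0 ≤ S := u0.trans u1
    have h2 : 0 ≤ τ * S ^ 3 := by positivity
    have h3 : 0 ≤ u x * v y := mul_nonneg u0 v0
    have h4 : u x * v y ≤ τ * S → u x * v y * (e x y * g x y - θ) / 2 - τ * S ^ 3 ≤ 0 := fun h5 => by
      have h6 : u x * v y * (e x y * g x y) ≤ τ * S * (S * S) :=
        mul_le_mul h5 (mul_le_mul e1 g1 g0 hS) (mul_nonneg e0 g0) (by positivity)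
      nlinarith [mul_nonneg h3 hθ]
    by_cases hx : C x
    · by_cases hy : C y
      · have h5 := mul_le_mul_of_nonneg_left (mul_le_mul_of_nonneg_right (hχ x y hx hy) g0) h3
        simp only [ind, if_pos hx, if_pos hy, one_mul]
        nlinarith
      · simp only [ind, if_neg hy, zero_mul, mul_zero]
        exact h4 (by rw [mul_comm τ]; exact mul_le_mul u1 (hC y hy).2 v0 hS)
    · simp only [ind, if_neg hx, zero_mul]
      exact h4 (mul_le_mul (hC x hx).1 v1 v0 hτ)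
  lin := by
    intro Q _ ι κ _ _ _ _ φ ρ R s z v k hρ hφ hk hR hv
    have h1 : ∏ m ∈ s, φ (fun i => (z + k • v) (m, i)) ≤
        ∏ m ∈ s, (Real.exp (1 / ρ * l1 fun i => (k • v) (m, i)) * φ fun i => z (m, i)) :=
      prod_le_prod (fun m _ => (hφ.pos _).le) fun m _ => hφ.lip _ _
    rw [prod_mul_distrib, ← Real.exp_sum, ← mul_sum] at h1
    refine h1.trans (mul_le_mul_of_nonneg_right (exp_le ?_) (prod_nonneg fun m _ => (hφ.pos _).le))
    have h2 : (∑ m ∈ s, l1 fun i => (k • v) (m, i)) ≤ l1 (k • v) := by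
      refine (sum_le_univ_sum_of_nonneg fun m => l1_nonneg _).trans (le_of_eq ?_)
      rw [l1, Fintype.sum_prod_type]
      rfl
    have h3 := l1_z hk hv
    rw [Int.cast_smul_eq_zsmul] at h3
    have h4 := (l1_nonneg v).trans hv
    rw [one_div, inv_mul_le_iff₀ hρ]
    linarith
  blk := by
    intro Q _ ι κ _ _ _ _ ρ z
    simp only [lap]
    rw [← Real.exp_sum, ← sum_div, sum_neg_distrib, l1, Fintype.sum_prod_type]
    rfl
  tail := by
    intro Q _ κ _ _ ρ ρ' R u v h1 h2 h3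
    rw [lap, lap, ← Real.exp_add, Real.exp_le_exp]
    have h4 := div_le_div_of_nonneg_left (l1_nonneg v) h1 h2
    have h5 := div_le_div_of_nonneg_right (h3.trans (l1_add_le u v)) (h1.le.trans h2)
    rw [add_div] at h5
    rw [neg_div, neg_div, neg_div]
    linarith

theorem low : LOW := by
  intro Q _ n T2 T3 T4 Tlo Thi β0 β1 β2 u v χ g S G δ θ η t2 t3 t4 l3 h3 l2 h2 hS hG hθ hη
    hβ0 hβ1 hβ2 hu hv hχ hg hM hδ hEu hEv h
  set Eu := 𝔼 a1 ∈ bx Q n T3, 𝔼 a2 ∈ bx Q n T4, β1 a1 * β2 a2 * u (a1 + a2) with eu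
  set Ev := 𝔼 t ∈ bx Q n T2, β0 t * v t with ev
  set M := 𝔼 a1 ∈ bx Q n T3, 𝔼 a2 ∈ bx Q n T4, 𝔼 t ∈ bx Q n T2,
    β1 a1 * β2 a2 * β0 t * u (a1 + a2) * v t * (g (a1 + a2 + t) * χ (a1 + a2 + t)) with hMd
  set M1 := 𝔼 a1 ∈ bx Q n T3, 𝔼 a2 ∈ bx Q n T4, 𝔼 t ∈ bx Q n T2,
    β1 a1 * β2 a2 * β0 t * u (a1 + a2) * v t * χ (a1 + a2 + t) with hM1
  have hS0 : 0 < S := by linarith
  have hP : Eu * Ev = 𝔼 a1 ∈ bx Q n T3, 𝔼 a2 ∈ bx Q n T4, 𝔼 t ∈ bx Q n T2,
      β1 a1 * β2 a2 * β0 t * u (a1 + a2) * v t := by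
    rw [eu, expect_mul]
    refine expect_congr rfl fun a1 _ => ?_
    rw [expect_mul]
    refine expect_congr rfl fun a2 _ => ?_
    rw [ev, mul_expect]
    exact expect_congr rfl fun t _ => by ring
  have e1 : lf T2 T3 T4 β0 β1 β2 u v (fun z => χ z * g z) θ = M - θ * (Eu * Ev) := by
    rw [hP, hMd, lf]
    simp only [mul_expect, ← expect_sub_distrib]
    exact expect_congr rfl fun a1 _ => expect_congr rfl fun a2 _ => expect_congr rfl fun t _ => by
      ring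
  have e2 : M ≤ G * M1 := by
    rw [hMd, hM1]
    simp only [mul_expect]
    refine expect_le_expect fun a1 _ => expect_le_expect fun a2 _ => expect_le_expect fun t _ => ?_
    have k1 : 0 ≤ β1 a1 * β2 a2 * β0 t * u (a1 + a2) * v t * χ (a1 + a2 + t) :=
      mul_nonneg (mul_nonneg (mul_nonneg (mul_nonneg (mul_nonneg (hβ1 _).1 (hβ2 _).1) (hβ0 _).1)
        (hu _).1) (hv _).1) (hχ _)
    have := mul_le_mul_of_nonneg_right (hg (a1 + a2 + t)).2 k1
    linarith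
  have bd : ∀ {p q : ℝ}, 0 ≤ p ∧ p ≤ S → 0 ≤ q ∧ q ≤ S → |p * q / S ^ 2| ≤ 1 := fun hp hq => by
    rw [abs_of_nonneg (div_nonneg (mul_nonneg hp.1 hq.1) (sq_nonneg S)), div_le_one (by positivity),
      sq]
    exact mul_le_mul hp.2 hq.2 hq.1 hS0.le
  have e3 : M1 - Eu * Ev ≤ S ^ 5 * δ := by
    rw [hP, hM1]
    simp only [← expect_sub_distrib]
    rw [expect_comm]
    refine expect_le (bx_nonempty t4) fun a2 _ => ?_
    have k1 := hM T3 T2 l3 h3 l2 h2 a2 1 (Or.inl rfl) (fun a1 => β1 a1 * u (a1 + a2) / S ^ 2)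
      (fun t => β0 t * v t / S ^ 2) (fun _ => bd (hβ1 _) (hu _)) fun _ => bd (hβ0 _) (hv _)
    have k2 : 0 ≤ δ := (abs_nonneg _).trans k1
    have k3 := mul_le_mul_of_nonneg_left (le_of_abs_le k1)
      (mul_nonneg (hβ2 a2).1 (pow_nonneg hS0.le 4))
    have k4 : β2 a2 * S ^ 4 * δ ≤ S ^ 5 * δ := by
      refine mul_le_mul_of_nonneg_right ?_ k2
      rw [pow_succ' S 4]
      exact mul_le_mul_of_nonneg_right (hβ2 a2).2 (by positivity)
    refine le_trans (le_of_eq ?_) (k3.trans k4)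
    simp only [mul_expect]
    refine expect_congr rfl fun a1 _ => expect_congr rfl fun t _ => ?_
    rw [one_smul, add_comm a2 a1]
    field_simp
  have p1 : 0 ≤ Eu := expect_nonneg fun a1 _ => expect_nonneg fun a2 _ =>
    mul_nonneg (mul_nonneg (hβ1 _).1 (hβ2 _).1) (hu _).1
  have p2 : 0 ≤ Ev := expect_nonneg fun t _ => mul_nonneg (hβ0 _).1 (hv _).1
  have p3 : 0 ≤ θ * (Eu * Ev) := mul_nonneg hθ (mul_nonneg p1 p2)
  have p4 : η / (2 * G) ≤ Eu * Ev := by
    rw [div_le_iff₀ (by linarith)]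
    have := mul_le_mul_of_nonneg_left e3 (by linarith : 0 ≤ G)
    nlinarith
  refine ⟨p4.trans (mul_le_of_le_one_right p1 hEv), p4.trans (mul_le_of_le_one_left p2 hEu), ?_⟩
  rw [mul_assoc]
  linarith

end Vale.Agent.P057Z.Gr
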