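import Vale.Agent.P057Z.Gr.Sk

/-! Block Gr, row D0: telescoping in the copies of w. -/

set_option linter.all false

open Finset
open scoped BigOperators

namespace Vale.Agent.P057Z.Gr

namespace D0A

theorem tel (θ : ℝ) : ∀ (N : ℕ) (x : Fin N → ℝ), ∏ l, x l - θ ^ N =
    ∑ l : Fin N, θ ^ (N - 1 - l) * ((∏ l' ∈ univ.filter (· < l), x l') * (x l - θ)) := by
  intro N
  induction N with
  | zero => intro x; simp
  | succ N ih =>
    intro x
    rw [Fin.sum_univ_castSucc, Fin.prod_univ_castSucc]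
    have h1 : ∀ l : Fin N, ∏ l' ∈ univ.filter (· < l.castSucc), x l' =
        ∏ l' ∈ univ.filter (· < l), x l'.castSucc := fun l => by
      rw [prod_filter, prod_filter, Fin.prod_univ_castSucc]
      simp [Fin.castSucc_lt_castSucc_iff, not_lt.2 (Fin.castSucc_lt_last l).le]
    have h2 : ∏ l' ∈ univ.filter (· < Fin.last N), x l' = ∏ l' : Fin N, x l'.castSucc := by
      rw [prod_filter, Fin.prod_univ_castSucc]
      simp [Fin.castSucc_lt_last]
    have h3 : ∑ l : Fin N, θ ^ (N + 1 - 1 - (l.castSucc : ℕ)) *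
        ((∏ l' ∈ univ.filter (· < l.castSucc), x l') * (x l.castSucc - θ)) =
        θ * (∏ l : Fin N, x l.castSucc - θ ^ N) := by
      rw [ih fun l => x l.castSucc, mul_sum]
      refine sum_congr rfl fun l _ => ?_
      have : N + 1 - 1 - (l.castSucc : ℕ) = N - 1 - l + 1 := by
        have := l.2
        simp only [Fin.val_castSucc]
        omega
      rw [h1, this, pow_succ]
      ring
    rw [h3, h2]
    simp only [Fin.val_last, Nat.add_sub_cancel, Nat.sub_self, pow_zero]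
    ring

theorem ind_nonneg (p : Prop) : 0 ≤ ind p := by
  unfold ind
  split_ifs <;> norm_num

theorem ind_le {p q : Prop} (h : p → q) : ind p ≤ ind q := by
  unfold ind
  by_cases hp : p
  · rw [if_pos hp, if_pos (h hp)]
  · rw [if_neg hp]
    exact ind_nonneg q

theorem ind_le_sum {ι : Type} [Fintype ι] {p : Prop} {q : ι → Prop} (h : p → ∃ l, q l) :
    ind p ≤ ∑ l, ind (q l) := by
  by_cases hp : p
  · obtain ⟨l, hl⟩ := h hp
    exact (ind_le fun _ => hl).trans
      (single_le_sum (f := fun l => ind (q l)) (fun l _ => ind_nonneg _) (mem_univ l))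
  · have : ind p = 0 := by unfold ind; rw [if_neg hp]
    rw [this]
    exact sum_nonneg fun l _ => ind_nonneg _

theorem exists_div_le {N : ℕ} (hN : 1 ≤ N) {c : ℝ} {x : Fin N → ℝ} (h : c ≤ ∑ l, x l) :
    ∃ l, c / N ≤ x l := by
  by_contra hc
  push Not at hc
  have hN' : (0 : ℝ) < N := by exact_mod_cast hN
  have : Nonempty (Fin N) := ⟨⟨0, hN⟩⟩
  have h1 : ∑ l, x l < ∑ _l : Fin N, c / N := sum_lt_sum_of_nonempty univ_nonempty fun l _ => hc l
  rw [sum_const, card_univ, Fintype.card_fin, nsmul_eq_mul, mul_div_cancel₀ _ hN'.ne'] at h1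
  linarith

end D0A

open D0A in
theorem d0_of (hS : STAR) : D0 := by
  intro α β Ξ _ s s' N A F Y1 kn S G θ θ0 κ0 κ hs hN hG hθ hθ0 hκ0 hA hF hY hk h
  classical
  have hN' : (0 : ℝ) < N := by exact_mod_cast hN
  have hθN : 0 < θ ^ N := by positivity
  let E : (Fin N → α) → Fin N → Ξ → ℝ := fun w l ξ => 𝔼 t ∈ s', Y1 t * kn ξ t *
    (∏ l, A (w l) t) * ((∏ l' ∈ univ.filter (· < l), F (w l') t) * (F (w l) t - θ))
  have h1 : ∀ w : Fin N → α, (∃ ξ, κ0 ≤ 𝔼 t ∈ s', Y1 t * kn ξ t * (∏ l, A (w l) t) *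
      (∏ l, F (w l) t - θ0)) → ∃ l, ∃ ξ, κ0 / (N * θ ^ N) ≤ E w l ξ := by
    rintro w ⟨ξ, hξ⟩
    have h2 : κ0 ≤ ∑ l : Fin N, θ ^ (N - 1 - l) * E w l ξ := by
      refine hξ.trans (le_trans (expect_le_expect (g := fun t => ∑ l : Fin N,
        θ ^ (N - 1 - l) * (Y1 t * kn ξ t * (∏ l, A (w l) t) *
          ((∏ l' ∈ univ.filter (· < l), F (w l') t) * (F (w l) t - θ)))) fun t _ => ?_) ?_)
      · have p : 0 ≤ Y1 t * kn ξ t * ∏ l, A (w l) t :=
          mul_nonneg (mul_nonneg (hY t).1 (hk ξ t)) (prod_nonneg fun l _ => (hA _ t).1)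
        refine (mul_le_mul_of_nonneg_left (sub_le_sub_left hθ0 _) p).trans ?_
        rw [tel θ N fun l => F (w l) t, mul_sum]
        exact le_of_eq (sum_congr rfl fun l _ => by ring)
      · rw [expect_sum_comm]
        exact le_of_eq (sum_congr rfl fun l _ => (mul_expect _ _ _).symm)
    obtain ⟨l, hl⟩ := exists_div_le hN h2
    refine ⟨l, ξ, ?_⟩
    have p1 : 0 < κ0 / N := by positivity
    have p2 : 0 < θ ^ (N - 1 - l) := by positivity
    have p3 : 0 < E w l ξ := by
      by_contra hc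
      have := mul_nonpos_of_nonneg_of_nonpos p2.le (not_lt.1 hc)
      linarith
    have p4 : θ ^ (N - 1 - l) ≤ θ ^ N := pow_le_pow_right₀ hθ (by omega)
    rw [← div_div, div_le_iff₀ hθN, mul_comm]
    exact hl.trans (mul_le_mul_of_nonneg_right p4 p3.le)
  have h3 : κ ≤ ∑ l : Fin N, 𝔼 w ∈ pw s N, ind (∃ ξ, κ0 / (N * θ ^ N) ≤ E w l ξ) := by
    rw [← expect_sum_comm]
    exact h.trans (expect_le_expect fun w _ => ind_le_sum (h1 w))
  obtain ⟨l, hl⟩ := exists_div_le hN h3
  rw [hS.upd α s N l] at hl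
  have hne : (pw s N).Nonempty := Fintype.piFinset_nonempty.2 fun _ => hs
  obtain ⟨z, -, hz⟩ := exists_le_of_le_expect hne hl
  let Y0 : β → ℝ := fun t => Y1 t * (∏ l' ∈ univ.erase l, A (z l') t) *
    ∏ l' ∈ univ.filter (· < l), F (z l') t
  have h4 : ∀ h ξ, E (Function.update z l h) l ξ =
      𝔼 t ∈ s', Y0 t * kn ξ t * A h t * (F h t - θ) := fun h ξ => by
    refine expect_congr rfl fun t _ => ?_
    have e1 : ∏ l', A (Function.update z l h l') t = A h t * ∏ l' ∈ univ.erase l, A (z l') t := by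
      rw [← mul_prod_erase univ _ (mem_univ l), Function.update_self]
      congr 1
      exact prod_congr rfl fun l' hl' => by rw [Function.update_of_ne (ne_of_mem_erase hl')]
    have e2 : ∏ l' ∈ univ.filter (· < l), F (Function.update z l h l') t =
        ∏ l' ∈ univ.filter (· < l), F (z l') t :=
      prod_congr rfl fun l' hl' => by rw [Function.update_of_ne (mem_filter.1 hl').2.ne]
    rw [e1, e2, Function.update_self]
    simp only [Y0]
    ring
  have h5 : ∀ h, ∃ ξ, (∃ ξ, κ0 / (N * θ ^ N) ≤ E (Function.update z l h) l ξ) →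
      κ0 / (N * θ ^ N) ≤ E (Function.update z l h) l ξ := fun h => by
    by_cases hh : ∃ ξ, κ0 / (N * θ ^ N) ≤ E (Function.update z l h) l ξ
    · exact hh.imp fun ξ hξ _ => hξ
    · exact ⟨Classical.arbitrary Ξ, fun h => absurd h hh⟩
  choose ξ hξ using h5
  refine ⟨Y0, ξ, fun t => ⟨?_, ?_⟩, hz.trans (expect_le_expect fun h _ => ind_le fun hh => ?_)⟩
  · exact mul_nonneg (mul_nonneg (hY t).1 (prod_nonneg fun l _ => (hA _ t).1))
      (prod_nonneg fun l _ => (hF _ t).1)
  · have a1 : ∏ l' ∈ univ.erase l, A (z l') t ≤ 1 :=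
      prod_le_one (fun l _ => (hA _ t).1) fun l _ => (hA _ t).2
    have a2 : ∏ l' ∈ univ.filter (· < l), F (z l') t ≤ G ^ N := by
      refine (prod_le_prod (fun l _ => (hF _ t).1) fun l _ => (hF _ t).2).trans ?_
      rw [prod_const]
      refine pow_le_pow_right₀ hG ((card_le_univ _).trans ?_)
      rw [Fintype.card_fin]
    have a3 : Y1 t * ∏ l' ∈ univ.erase l, A (z l') t ≤ S :=
      (mul_le_of_le_one_right (hY t).1 a1).trans (hY t).2
    exact mul_le_mul a3 a2 (prod_nonneg fun l _ => (hF _ t).1) ((hY t).1.trans (hY t).2)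
  · rw [← h4]
    exact hξ h hh

end Vale.Agent.P057Z.Gr
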