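import Vale.Agent.P057Z.Gr.Num
import Vale.Agent.P057Z.Rg.Base

/-! Block Gr: the two variables on one lattice. -/

set_option linter.all false

open Finset
open scoped BigOperators

namespace Vale.Agent.P057Z.Gr

namespace D1A

variable {Q : ℕ} [Fact Q.Prime] {n : ℕ} {ι : Type} [Fintype ι] [DecidableEq ι]

theorem lap01 {ρ : ℝ} (h : 0 < ρ) (u : ι → ZMod Q) : 0 ≤ lap ρ u ∧ lap ρ u ≤ 1 :=
  ⟨(Real.exp_pos _).le, Real.exp_le_one_iff.2 (div_nonpos_of_nonpos_of_nonneg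
    (neg_nonpos.2 (sum_nonneg fun i _ => Ke.nm_nonneg (u i))) h.le)⟩

theorem near_z {x : V Q n} {t : ℕ} (hx : Near x t) {z : ℤ} {j : ℕ} (hz : |z| ≤ j) :
    Near (z • x) (j * t) := by
  rw [← Int.cast_smul_eq_zsmul (ZMod Q)]
  exact Ke.near_smul hx hz

end D1A

open D1A in
theorem d1 : D1 := by
  intro Q _ n T T6 T7 W r ι _ _ B f Y0 ξ p0 t2 c k S G θ ρn ρ5 κa κb h7 hW h6 h6T hTQ hc hk hρn hρ5
    hS hκa hκb hf hY herr hmain
  have hG : 0 ≤ G := (abs_nonneg _).trans (hf 0)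
  have hS0 : 0 < S := by linarith
  have hSG : 0 ≤ S * G := by positivity
  obtain ⟨A, hA⟩ : ∃ A : V Q n → V Q n → ℝ, ∀ h t, A h t = Y0 t *
      lap ρn (fun i => ξ h i ⬝ᵥ (t - t2)) * lap ρ5 (B h (t - t2)) * (f (p0 + c • h + k • t) - θ) :=
    ⟨_, fun _ _ => rfl⟩
  simp only [← hA] at hmain
  obtain ⟨u, hu⟩ : ∃ u : V Q n → ℝ, ∀ h, u h = ind (κb ≤ 𝔼 t ∈ bx Q n T6, A h t) :=
    ⟨_, fun _ => rfl⟩
  simp only [← hu] at hmain
  have hu01 : ∀ h, 0 ≤ u h ∧ u h ≤ 1 := fun h => hu h ▸ Nu.ind_01 _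
  have hb : ∀ h t, |u h * A h t| ≤ S * G := fun h t => by
    have a1 := lap01 hρn (fun i => ξ h i ⬝ᵥ (t - t2))
    have a2 := lap01 hρ5 (B h (t - t2))
    rw [hA, abs_mul, abs_mul, abs_mul, abs_mul, abs_of_nonneg (hu01 h).1, abs_of_nonneg (hY t).1,
      abs_of_nonneg a1.1, abs_of_nonneg a2.1]
    refine (mul_le_of_le_one_left (mul_nonneg (mul_nonneg (mul_nonneg (hY t).1 a1.1) a2.1)
      (abs_nonneg _)) (hu01 h).2).trans (mul_le_mul ?_ (hf _) (abs_nonneg _) hS0.le)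
    exact (mul_le_of_le_one_right (mul_nonneg (hY t).1 a1.1) a2.2).trans
      ((mul_le_of_le_one_right (hY t).1 a1.2).trans (hY t).2)
  have h0 : κa * κb ≤ 𝔼 h ∈ bx Q n T, 𝔼 t ∈ bx Q n T6, u h * A h t := by
    refine (mul_le_mul_of_nonneg_right hmain hκb.le).trans ?_
    rw [expect_mul]
    refine expect_le_expect fun h _ => ?_
    rw [← mul_expect, hu]
    by_cases hp : κb ≤ 𝔼 t ∈ bx Q n T6, A h t
    · rw [Nu.ind_pos hp, one_mul, one_mul]
      exact hp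
    · rw [Nu.ind_neg hp, zero_mul, zero_mul]
  have hWT : 1 ≤ W * T7 := Nat.mul_pos hW h7
  obtain ⟨h1, k1⟩ := Rg.sub1 (Rg.bx_ne (Q := Q) (n := n) h7)
    (g := fun h => 𝔼 t ∈ bx Q n T6, u h * A h t) (p := fun h' => k • h') (t := 54 * T7)
    (fun h => Rg.abs_av hSG fun t _ => hb h t)
    (fun a ha => near_z (Rg.near_bx ha) (by exact_mod_cast hk)) (h6.trans h6T) hTQ
  obtain ⟨t', k2⟩ := Rg.sub1 (Rg.bx_ne (Q := Q) (n := n) hWT)
    (g := fun t => 𝔼 h' ∈ bx Q n T7, u (h1 + k • h') * A (h1 + k • h') t)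
    (p := fun s => c • s) (t := 3 * (W * T7))
    (fun t => Rg.abs_av hSG fun h _ => hb _ t)
    (fun a ha => near_z (Rg.near_bx ha) (by exact_mod_cast hc)) h6 (h6T.trans hTQ)
  rw [expect_comm (bx Q n T6), expect_comm (bx Q n (W * T7))] at k2
  have hT6 : (0 : ℝ) < T6 := by exact_mod_cast h6
  have hT6T : (T6 : ℝ) ≤ T := by exact_mod_cast h6T
  have hW' : (1 : ℝ) ≤ W := by exact_mod_cast hW
  have e1 : 2 * (n : ℝ) * ((54 * T7 : ℕ) : ℝ) / T * (S * G) ≤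
      108 / 1000 * (1000 * n * (W * T7) / T6 * (S * G)) := by
    rw [← mul_assoc (108 / 1000 : ℝ)]
    refine mul_le_mul_of_nonneg_right ?_ hSG
    rw [← mul_div_assoc]
    refine div_le_div₀ (by positivity) ?_ hT6 hT6T
    push_cast
    have : (0 : ℝ) ≤ n * T7 := by positivity
    nlinarith
  have e2 : 2 * (n : ℝ) * ((3 * (W * T7) : ℕ) : ℝ) / T6 * (S * G) =
      6 / 1000 * (1000 * n * (W * T7) / T6 * (S * G)) := by
    push_cast
    ring
  have hκ : 0 < κa * κb := mul_pos hκa hκb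
  have h2 : κa * κb / 2 ≤ 𝔼 h' ∈ bx Q n T7, 𝔼 s ∈ bx Q n (W * T7),
      u (h1 + k • h') * A (h1 + k • h') (t' + c • s) := by linarith
  refine ⟨p0 + c • h1 + k • t', fun h' i => c • ξ (h1 + k • h') i, fun h' => u (h1 + k • h'),
    fun s => Y0 (t' + c • s) / S, fun h' i => ξ (h1 + k • h') i ⬝ᵥ (t' - t2),
    fun h' => B (h1 + k • h') (t' - t2), fun s => B h1 (c • s), fun h' => hu01 _,
    fun s => ⟨div_nonneg (hY _).1 hS0.le, (div_le_one hS0).2 (hY _).2⟩, ?_⟩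
  rw [← div_div]
  refine (div_le_div_of_nonneg_right h2 hS0.le).trans (le_of_eq ?_)
  rw [expect_div]
  refine expect_congr rfl fun h' _ => ?_
  rw [expect_div]
  refine expect_congr rfl fun s _ => ?_
  have f1 : (fun i => ξ (h1 + k • h') i ⬝ᵥ (t' + c • s - t2)) =
      fun i => (c • ξ (h1 + k • h') i) ⬝ᵥ s + ξ (h1 + k • h') i ⬝ᵥ (t' - t2) := by
    funext i
    rw [smul_dotProduct, ← dotProduct_smul, ← dotProduct_add]
    refine congrArg _ ?_
    abel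
  have f2 : B (h1 + k • h') (t' + c • s - t2) =
      ((k * c) • B) h' s + B (h1 + k • h') (t' - t2) + B h1 (c • s) := by
    simp only [map_add, map_sub, map_zsmul, LinearMap.add_apply, LinearMap.smul_apply, smul_add,
      smul_smul, mul_comm c k]
    abel
  have f3 : p0 + c • (h1 + k • h') + k • (t' + c • s) =
      p0 + c • h1 + k • t' + (k * c) • (h' + s) := by
    simp only [smul_add, smul_smul, mul_comm c k]
    abel
  rw [hA, f1, f2, f3]
  ring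

end Vale.Agent.P057Z.Gr
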