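import Vale.Agent.P057Z.Gr.Sk

/-! Block Gr: consequences of equidistribution. -/

set_option linter.unusedSectionVars false

open Finset
open scoped BigOperators

namespace Vale.Agent.P057Z.Gr

noncomputable section

namespace EqcX

variable {Q : ℕ} [Fact Q.Prime] {n : ℕ} {ι : Type} [Fintype ι] [DecidableEq ι]
  {K : Submodule (ZMod Q) (ι → ZMod Q)} {K0 : ℕ} {M η ρ : ℝ} {φ : (ι → ZMod Q) → ℝ}

theorem abs_le_one (h : Kern ρ φ K0 M η) (z : ι → ZMod Q) : |φ z| ≤ 1 := by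
  rw [abs_of_pos (h.ll.pos z)]
  exact h.ll.le_one z

theorem mass (hP : POP) (h0 : 0 < ρ) (h1 : ρ ≤ 1) (h : Kern ρ φ K0 M η) :
    (ρ / (3 * (Fintype.card ι + 1))) ^ Fintype.card ι / 6 ≤ avg K φ 0 ∧ avg K φ 0 ≤ 1 := by
  refine ⟨?_, expect_le (perp_nonempty K) fun v _ => h.ll.le_one _⟩
  have h2 := (hP Q ι ρ h0 h1).2 K
  have h3 : avg K (lap ρ) 0 / 2 ≤ avg K φ 0 := by
    unfold avg
    rw [expect_div]
    exact expect_le_expect fun v _ => h.lo _
  linarith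

theorem mass_pos (hP : POP) (h0 : 0 < ρ) (h1 : ρ ≤ 1) (h : Kern ρ φ K0 M η) : 0 < avg K φ 0 :=
  lt_of_lt_of_le (by positivity) (mass hP h0 h1 h).1

theorem avg_perp (hA : AVG) {z : ι → ZMod Q} (hz : z ∈ perp K) : avg K φ z = avg K φ 0 := by
  have h := (hA Q ι K φ).2.1 0 z hz
  rwa [zero_add] at h

theorem div_form {α : Type} (s t : Finset α) (u v : α → ℝ) (F : α → α → ℝ) {m e : ℝ} (hm : 0 < m)
    (h : |𝔼 x ∈ s, 𝔼 y ∈ t, u x * v y * (F x y - m)| ≤ e) :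
    |𝔼 x ∈ s, 𝔼 y ∈ t, u x * v y * (F x y / m - 1)| ≤ e / m := by
  have h1 : 𝔼 x ∈ s, 𝔼 y ∈ t, u x * v y * (F x y / m - 1) =
      (𝔼 x ∈ s, 𝔼 y ∈ t, u x * v y * (F x y - m)) / m := by
    rw [expect_div]
    refine expect_congr rfl fun x _ => ?_
    rw [expect_div]
    refine expect_congr rfl fun y _ => ?_
    field_simp
  rw [h1, abs_div, abs_of_pos hm]
  exact div_le_div_of_nonneg_right h hm.le

theorem expand {B : Bil Q n ι} (hs : ∀ x y, B x y = B y x) (r a b : ZMod Q) (p x y : V Q n) :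
    r • B (p + a • x + b • y) (p + a • x + b • y) = (2 * r * a * b) • B x y +
      r • B (p + a • x) (p + a • x) + r • ((2 * b) • B p y + (b * b) • B y y) := by
  simp only [map_add, map_smul, LinearMap.add_apply, LinearMap.smul_apply, hs y x, hs y p]
  funext i
  simp only [Pi.add_apply, Pi.smul_apply, smul_eq_mul]
  ring

end EqcX

open EqcX

theorem eqc_of (hE : EQ) (hA : AVG) (hP : POP) : EQC := by
  intro Q _ n ι _ _ B K K0 K1 Tlo Thi δ M η hR hδ hs hB hlo hK hQ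
  have h1 : ((1 : ℤ) : ZMod Q) ≠ 0 := by simp
  have hK1 : (1 : ℤ).natAbs * K0 ≤ K1 := by
    simp only [Int.natAbs_one]
    omega
  refine ⟨fun ρ φ r0 r1 hφ => ⟨mass hP r0 r1 hφ, fun T t1 t2 u v hu hv => ?_,
    fun r k j x1 j0 j1 hj T1 T2 a1 a2 b1 b2 c s hs1 u v hu hv => ?_⟩,
    fun ρ ρ0 φ φ0 ℓ T T' r0 r1 r2 r3 hφ hφ0 t1 t2 t3 t4 => ?_⟩
  · have h := (hE Q n ι ι B K K0 K0 K1 Tlo Thi T T δ M η M η 1 1 φ φ (fun _ => 0) (fun _ => 0)
      (fun _ => 0) (fun _ => 0) u v hR hδ hB h1 hK1 hlo t1 t2 t1 t2 hφ.fa hφ.fa (abs_le_one hφ)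
      hu hv).1
    simp only [one_smul, add_zero] at h
    exact div_form _ _ u v (fun x y => φ (B x y)) (mass_pos hP r0 r1 hφ) h
  · have hsj : |s * j| = |j| := by rcases hs1 with rfl | rfl <;> simp
    have j2 : ((s * j : ℤ) : ZMod Q) ≠ 0 := int_ne _ (by
      rcases hs1 with rfl | rfl <;> simpa using j0) (by rw [hsj]; omega)
    have j3 : (s * j).natAbs * K0 ≤ K1 := by
      refine le_trans (Nat.mul_le_mul_right _ ?_) hK
      have := Int.natCast_natAbs (s * j)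
      omega
    have h := (hE Q n ι ι B K K0 K0 K1 Tlo Thi T1 T2 δ M η M η 1 (s * j) φ φ
      (fun x => r • B (x1 + k • c + (k : ZMod Q) • x) (x1 + k • c + (k : ZMod Q) • x))
      (fun y => r • ((2 * ((k * s : ℤ) : ZMod Q)) • B (x1 + k • c) y +
        (((k * s : ℤ) : ZMod Q) * ((k * s : ℤ) : ZMod Q)) • B y y))
      (fun _ => 0) (fun _ => 0) u v hR hδ hB j2 j3 hlo a1 a2 b1 b2 hφ.fa hφ.fa (abs_le_one hφ)
      hu hv).1
    refine div_form _ _ u v (fun x y => φ (r • B (x1 + k • (c + x + s • y))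
      (x1 + k • (c + x + s • y)))) (mass_pos hP r0 r1 hφ) (le_of_eq_of_le ?_ h)
    refine congrArg abs (expect_congr rfl fun x _ => expect_congr rfl fun y _ => ?_)
    have e1 : x1 + k • (c + x + s • y) =
        x1 + k • c + (k : ZMod Q) • x + ((k * s : ℤ) : ZMod Q) • y := by
      rw [Int.cast_smul_eq_zsmul, Int.cast_smul_eq_zsmul, smul_add, smul_add, smul_smul]
      abel
    have e2 : (s * j) • B x y = (2 * r * (k : ZMod Q) * ((k * s : ℤ) : ZMod Q)) • B x y := by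
      rw [← Int.cast_smul_eq_zsmul (ZMod Q)]
      push_cast
      rw [hj]
      congr 1
      ring
    rw [e1, expand hs, e2, avg_perp hA (perp_add (perp_smul _ (hB _ _))
      (perp_smul _ (perp_add (perp_smul _ (hB _ _)) (perp_smul _ (hB _ _)))))]
  · have m1 := mass_pos (K := K) hP r0 r1 hφ
    have m0 := mass_pos (K := K) hP r2 r3 hφ0
    have m2 := (mass (K := K) hP r2 r3 hφ0).2
    have h12 : (12 : ZMod Q) ≠ 0 := by
      have := int_ne (Q := Q) 12 (by norm_num) (by rw [abs_of_pos (by norm_num)]; omega)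
      exact_mod_cast this
    have h := (hE Q n ι ι B K K0 K0 K1 Tlo Thi T T' δ M η M η 1 1 φ0 φ
      (fun x => (12 : ZMod Q)⁻¹ • B x x)
      (fun y => (12 : ZMod Q)⁻¹ • B (((6 : ℤ) : ZMod Q) • y) (((6 : ℤ) : ZMod Q) • y))
      (fun x => ℓ x) (fun y => ℓ (((6 : ℤ) : ZMod Q) • y)) (fun _ => 1) (fun _ => 1) hR hδ hB h1
      hK1 hlo (t1.trans t2) t3 t1 (t2.trans t3) hφ0.fa hφ.fa (abs_le_one hφ0) (fun _ => by simp)
      (fun _ => by simp)).2
    have hg : ∀ x : V Q n, ‖φ (ℓ x) * (φ0 ((12 : ZMod Q)⁻¹ • B x x) - avg K φ0 0)‖ ≤ 1 := by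
      intro x
      rw [Real.norm_eq_abs, abs_mul]
      have c1 := hφ0.ll.pos ((12 : ZMod Q)⁻¹ • B x x)
      have c2 := hφ0.ll.le_one ((12 : ZMod Q)⁻¹ • B x x)
      exact mul_le_one₀ (abs_le_one hφ _) (abs_nonneg _) (abs_le.2 ⟨by linarith, by linarith⟩)
    have h2 := Ke.fol_avg (𝕜 := ℝ) (Ke.bx_nonempty (Q := Q) (n := n) (hlo.trans t1))
      (hlo.trans (t1.trans t2)) t4 (t := 6 * T') (v := fun y => ((6 : ℤ) : ZMod Q) • y)
      (fun y hy => Ke.near_smul (Ke.near_of_mem_bx hy) (by norm_num))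
      (fun x => φ (ℓ x) * (φ0 ((12 : ZMod Q)⁻¹ • B x x) - avg K φ0 0)) hg
    have h3 : (𝔼 x ∈ bx Q n T, 𝔼 y ∈ bx Q n T', φ (ℓ (x + ((6 : ℤ) : ZMod Q) • y)) *
        (φ0 ((12 : ZMod Q)⁻¹ • B (x + ((6 : ℤ) : ZMod Q) • y) (x + ((6 : ℤ) : ZMod Q) • y)) -
          avg K φ0 0)) = 𝔼 x ∈ bx Q n T, 𝔼 y ∈ bx Q n T', (1 : ℝ) * 1 *
        (φ0 ((1 : ℤ) • B x y + (12 : ZMod Q)⁻¹ • B x x +
          (12 : ZMod Q)⁻¹ • B (((6 : ℤ) : ZMod Q) • y) (((6 : ℤ) : ZMod Q) • y)) -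
          avg K φ0 ((12 : ZMod Q)⁻¹ • B x x +
            (12 : ZMod Q)⁻¹ • B (((6 : ℤ) : ZMod Q) • y) (((6 : ℤ) : ZMod Q) • y))) *
          φ (ℓ x + ℓ (((6 : ℤ) : ZMod Q) • y)) := by
      refine expect_congr rfl fun x _ => expect_congr rfl fun y _ => ?_
      have e1 : (12 : ZMod Q)⁻¹ • B (x + ((6 : ℤ) : ZMod Q) • y) (x + ((6 : ℤ) : ZMod Q) • y) =
          (1 : ℤ) • B x y + (12 : ZMod Q)⁻¹ • B x x +
            (12 : ZMod Q)⁻¹ • B (((6 : ℤ) : ZMod Q) • y) (((6 : ℤ) : ZMod Q) • y) := by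
        simp only [map_add, map_smul, LinearMap.add_apply, LinearMap.smul_apply, hs y x, one_smul]
        funext i
        simp only [Pi.add_apply, Pi.smul_apply, smul_eq_mul]
        push_cast
        field_simp
        ring
      rw [e1, map_add, avg_perp hA (perp_add (perp_smul _ (hB _ _)) (perp_smul _ (hB _ _)))]
      ring
    rw [Real.norm_eq_abs, h3] at h2
    have h4 : 𝔼 x ∈ bx Q n T, φ (ℓ x) / avg K φ 0 = (𝔼 x ∈ bx Q n T, nv ℓ B K φ φ0 x) -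
        (𝔼 x ∈ bx Q n T, φ (ℓ x) * (φ0 ((12 : ZMod Q)⁻¹ • B x x) - avg K φ0 0)) /
          (avg K φ 0 * avg K φ0 0) := by
      rw [expect_div, ← expect_sub_distrib]
      refine expect_congr rfl fun x _ => ?_
      unfold nv
      field_simp
      ring
    rw [h4, sub_eq_add_neg, ← neg_div]
    refine add_le_add_right (div_le_div_of_nonneg_right ?_ (by positivity)) _
    have h5 := (abs_le.1 h).1
    have h6 := (abs_le.1 h2).2
    have h7 : 2 * (n : ℝ) * ((6 * T' : ℕ) : ℝ) / T * 1 = 12 * n * T' / T := by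
      push_cast
      ring
    linarith

end

end Vale.Agent.P057Z.Gr
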