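import Vale.Agent.P057Z.Gr.Pw2

/-! Block Gr: from many good tuples to S3. -/

set_option linter.all false

open Finset Real
open scoped BigOperators

namespace Vale.Agent.P057Z.Gr

open Nu Ke

noncomputable section

namespace Dt

variable {Q : ℕ} [Fact Q.Prime] {n : ℕ} {ι : Type} [Fintype ι] [DecidableEq ι] {d : Dt Q n ι}
  {N j : ℕ}

theorem lap_01 {κ : Type} [Fintype κ] [DecidableEq κ] {ρ : ℝ} (h : 0 < ρ) (u : κ → ZMod Q) :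
    0 ≤ lap ρ u ∧ lap ρ u ≤ 1 :=
  ⟨(exp_pos _).le,
    exp_le_one_iff.2 (div_nonpos_of_nonpos_of_nonneg (neg_nonpos.2 (l1_nonneg _)) h.le)⟩

theorem Ok.fin (ok : d.Ok) (hC : CHI) (hL : LOW) (hB : LOCB) (hP : POP) (h0 : D0) (h1 : D1)
    (hN1 : 1 ≤ N) (hN : (N : ℝ) ≤ d.X) (hj : (j : ℝ) + 1 ≤ d.X) {Kv th η1 θ E : ℝ} {T7 W : ℕ}
    (hK : Kv ≤ 2 * exp (d.X ^ 3)) (th1 : 1 ≤ th) (th2 : th ≤ exp d.X) (hη : exp (-(2 * d.X)) ≤ η1)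
    (θ1 : 1 ≤ θ) (θ2 : θ ≤ 2) (θ3 : θ ^ N ≤ (1 - 1 / 100) * (th / 16 / 2)) (hc : |d.c| ≤ 3)
    (hn : 0 < d.ρn) (h5 : 0 < d.ρ5) (hκ : exp (-E) ≤ d.κ) (h7 : 1 ≤ T7) (hW : 1 ≤ W)
    (hT : (n : ℝ) * (W * T7) / d.T6 ≤ exp (-(2 * E + 4 * d.Y ^ 6)))
    (h : exp (-d.Y ^ 6) ≤ 𝔼 w ∈ Gr.pw (bx Q n d.T) N, 𝔼 y ∈ Gr.pw (bx Q n d.T) j,
      ind (GA (bx Q n d.T) d.ν d.ν' d.e d.g Kv (th / 16) η1 w y)) :
    ∃ (x1 : V Q n) (ξ : V Q n → Fin d.r → V Q n), S3 (fun z => d.f (x1 + (d.k * d.c) • z)) θ T7 W ξ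
      ((d.k * d.c) • d.B) d.ρn d.ρ5 (exp (-(2 * E + 4 * d.Y ^ 6))) := by
  obtain ⟨⟨_, _, _⟩, ⟨_, _, _, _, _⟩, _, _, _⟩ := pows ok.x ok.xy
  have hx := ok.x
  have hxy := ok.xy
  obtain ⟨t1, t2, t3, t4, t5, t6⟩ := ok.t
  have ne : (bx Q n d.T).Nonempty := bx_nonempty (by omega)
  have κ0 := (exp_pos _).trans_le hκ
  have c1 := chain h (by positivity) (fun w y hG => ok.pw hC hL hB hP w y hN hj hK th1 th2 hη hG)
    fun _ _ => expect_nonneg fun _ _ => expect_nonneg fun _ _ => expect_nonneg fun _ _ =>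
      expect_nonneg fun _ _ => (ind_01 _).1
  obtain ⟨y, -, c2⟩ := pick (pw_ne ne j) c1
  obtain ⟨x1, -, c3⟩ := pick ne c2
  obtain ⟨y1, -, c4⟩ := pick ne c3
  obtain ⟨z, -, c5⟩ := pick (bx_nonempty (by omega)) c4
  obtain ⟨t2, -, c6⟩ := pick (bx_nonempty t1) c5
  have G1 : 2 ≤ exp d.X := by linarith [add_one_le_exp d.X]
  obtain ⟨Y0, ξ, hY0, c7⟩ := h0 _ _ (Fin d.r → V Q n) (bx Q n d.T) (bx Q n d.T6) N
    (fun h t => lap d.ρ5 (d.B h (t - t2))) (fun h t => d.f (d.p0 x1 y1 z t2 + d.c • h + d.k • t))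
    (d.Y1 y x1 y1 z t2) (fun ξ t => lap d.ρn (fun i => ξ i ⬝ᵥ (t - t2))) (exp (d.Y ^ 3)) (exp d.X)
    θ _ d.κ _ ne hN1 (by linarith) θ1 θ3 κ0 (fun _ _ => lap_01 h5 _) (fun _ _ => ok.f _)
    (fun t => by
      have a : 0 ≤ ∏ i, lap d.ρ5 (d.B (y i) (t - t2)) := prod_nonneg fun _ _ => (lap_01 h5 _).1
      have b : ∏ i, lap d.ρ5 (d.B (y i) (t - t2)) ≤ 1 :=
        prod_le_one (fun _ _ => (lap_01 h5 _).1) fun _ _ => (lap_01 h5 _).2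
      exact ⟨mul_nonneg (ok.dφ _).1 (mul_nonneg (lap_01 h5 _).1 a),
        (mul_le_of_le_one_right (ok.dφ _).1 (mul_le_one₀ (lap_01 h5 _).2 a b)).trans (ok.dφ _).2⟩)
    (fun _ _ => (lap_01 hn _).1) c6
  have N0 : (0 : ℝ) < N := by exact_mod_cast hN1
  have NX : (N : ℝ) ≤ exp d.X := by linarith [add_one_le_exp d.X]
  have θN : θ ^ N ≤ exp d.X := (pow_le_pow_left₀ (by linarith) θ2 N).trans (two_pow hN)
  have hS : exp (d.Y ^ 3) * exp d.X ^ N ≤ exp (d.Y ^ 4) :=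
    xx le_rfl (pow_exp hN (by linarith)) (by positivity) (by linarith [sq d.X])
  have ka : exp (-(E + 2 * d.Y ^ 6 + d.X)) ≤ exp (-d.Y ^ 6) * (exp (-d.Y ^ 6) * d.κ) / N := by
    refine xd (A := -d.Y ^ 6 + (-d.Y ^ 6 + -E)) ?_ NX N0 (by linarith)
    rw [exp_add, exp_add]
    gcongr
  have kb : exp (-(E + 2 * d.X)) ≤ d.κ / (N * θ ^ N) :=
    xd hκ (xx NX θN (by positivity) le_rfl) (by positivity) (by linarith)
  have kab := mul_le_mul ka kb (exp_pos _).le ((exp_pos _).le.trans ka)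
  rw [← exp_add] at kab
  have hk : |d.k| ≤ 54 := by
    rw [Dt.k, abs_mul, abs_mul]
    have := mul_le_mul ok.a.2 ok.b.2 (abs_nonneg _) (by norm_num)
    norm_num
    linarith
  obtain ⟨x2, ξ', u, Y', γ, α, β, hu, hY', c8⟩ := h1 Q n d.T d.T6 T7 W d.r ι d.B d.f Y0 ξ
    (d.p0 x1 y1 z t2) t2 d.c d.k _ (exp d.X) θ d.ρn d.ρ5 _ _ h7 hW t1 (by omega) t6 hc hk hn h5
    (one_le_mul_of_one_le_of_one_le (one_le_exp (by linarith)) (one_le_pow₀ (by linarith)))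
    ((exp_pos _).trans_le ka) ((exp_pos _).trans_le kb)
    (fun x => abs_le.2 ⟨by linarith [(ok.f x).1], by linarith [(ok.f x).2]⟩) hY0
    (le_trans (xx (A := d.X + -(2 * E + 4 * d.Y ^ 6)) (by
      rw [mul_assoc, mul_div_assoc]
      exact (mul_le_mul_of_nonneg_left hT (by norm_num)).trans (cx hx le_rfl le_rfl))
      (xx hS le_rfl (exp_pos _).le le_rfl) (by positivity) (by linarith)) kab) c7
  exact ⟨x2, ξ', u, Y', γ, α, β, hu, hY', le_trans (xd kab ((mul_le_mul_of_nonneg_left hS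
    zero_le_two).trans (cx hx (by norm_num) le_rfl)) (by positivity) (by linarith)) c8⟩

end Dt

end

end Vale.Agent.P057Z.Gr
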