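import Vale.Agent.P057Z.Gr.Sk

/-! Block Gr: localisation. -/

set_option linter.all false

open Finset
open scoped BigOperators

namespace Vale.Agent.P057Z.Gr

open Vale.Agent.P057Z.Ke

namespace Locb

variable {G κ κ' : Type}

theorem wle {s : Finset κ} {β D : κ → ℝ} {c : ℝ} (h0 : ∀ j, 0 ≤ β j) (h1 : 𝔼 j ∈ s, β j = 1)
    (h : ∀ j ∈ s, D j ≤ c) : 𝔼 j ∈ s, β j * D j ≤ c := by
  refine (expect_le_expect fun j hj => mul_le_mul_of_nonneg_left (h j hj) (h0 j)).trans_eq ?_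
  rw [← expect_mul, h1, one_mul]

theorem wge {s : Finset κ} {β D : κ → ℝ} {c : ℝ} (h0 : ∀ j, 0 ≤ β j) (h1 : 𝔼 j ∈ s, β j = 1)
    (h : ∀ j ∈ s, c ≤ D j) : c ≤ 𝔼 j ∈ s, β j * D j := by
  refine le_trans (le_of_eq ?_)
    (expect_le_expect fun j hj => mul_le_mul_of_nonneg_left (h j hj) (h0 j))
  rw [← expect_mul, h1, one_mul]

theorem swap4 (B : Finset G) (s : Finset κ) (s' : Finset κ') (F : G → G → κ → κ' → ℝ) :
    𝔼 x ∈ B, 𝔼 y ∈ B, 𝔼 p ∈ s, 𝔼 t ∈ s', F x y p t =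
      𝔼 p ∈ s, 𝔼 t ∈ s', 𝔼 x ∈ B, 𝔼 y ∈ B, F x y p t := by
  have h := expect_comm (B ×ˢ B) (s ×ˢ s') fun a b => F a.1 a.2 b.1 b.2
  simpa only [expect_product] using h

theorem ind_01 (p : Prop) : 0 ≤ ind p ∧ ind p ≤ 1 := by
  unfold ind
  split_ifs <;> norm_num

theorem mean_le {B : Finset G} {s : Finset κ} {γ c : κ → ℝ} {sh : G → κ → G} {u : G → ℝ}
    {A : ℝ} (h0 : ∀ j, 0 ≤ γ j) (h1 : 𝔼 j ∈ s, γ j = 1) (hc : ∀ j, c j ≤ 1) (hu : ∀ x, 0 ≤ u x)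
    (h : ∀ p ∈ s, 𝔼 x ∈ B, u (sh x p) ≤ A) :
    𝔼 x ∈ B, 𝔼 p ∈ s, γ p * (c p * u (sh x p)) ≤ A := by
  rw [expect_comm]
  simp only [← mul_expect]
  exact wle h0 h1 fun p hp => (mul_le_of_le_one_left (expect_nonneg fun _ _ => hu _) (hc p)).trans
    (h p hp)

theorem core {B : Finset G} {s : Finset κ} {s' : Finset κ'} (hB : B.Nonempty) (hs : s.Nonempty)
    (hs' : s'.Nonempty) {γ : κ → ℝ} {β : κ' → ℝ} {sh : G → κ → G} {sh' : G → κ' → G}
    {Cu : κ → Prop} {Cv : κ' → Prop} {F : G → G → ℝ} {Nu Nv : G → ℝ} {Gd : G → G → Prop}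
    {ε M τ η η' A : ℝ}
    (L1 : ∀ g : G → ℝ, (∀ x, |g x| ≤ M) → ∀ p ∈ s,
      |(𝔼 x ∈ B, g (sh x p)) - 𝔼 x ∈ B, g x| ≤ ε * M)
    (L2 : ∀ g : G → ℝ, (∀ x, |g x| ≤ M) → ∀ t ∈ s',
      |(𝔼 x ∈ B, g (sh' x t)) - 𝔼 x ∈ B, g x| ≤ ε * M)
    (g0 : ∀ j, 0 ≤ γ j) (g1 : 𝔼 j ∈ s, γ j = 1) (b0 : ∀ j, 0 ≤ β j) (b1 : 𝔼 j ∈ s', β j = 1)
    (cu : ∀ p, ¬ Cu p → γ p ≤ τ) (cv : ∀ t, ¬ Cv t → β t ≤ τ) (hτ : 0 ≤ τ) (hM : 0 ≤ M)
    (hF : ∀ x y, |F x y| ≤ M) (hη' : 0 ≤ η') (nu : ∀ x, 0 ≤ Nu x) (nv : ∀ x, 0 ≤ Nv x)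
    (eu : 𝔼 x ∈ B, Nu x ≤ A) (ev : 𝔼 x ∈ B, Nv x ≤ A)
    (hG : ∀ x y, η' * (Nu x * Nv y) ≤ 𝔼 p ∈ s, 𝔼 t ∈ s',
      γ p * (β t * (ind (Cu p) * ind (Cv t) * F (sh x p) (sh' y t))) → Gd x y)
    (h : η ≤ 𝔼 x ∈ B, 𝔼 y ∈ B, F x y) :
    η - 2 * (ε * M) - 2 * (τ * M) - η' * (A * A) ≤ M * 𝔼 x ∈ B, 𝔼 y ∈ B, ind (Gd x y) := by
  have h1 : η - 2 * (ε * M) ≤
      𝔼 x ∈ B, 𝔼 y ∈ B, 𝔼 p ∈ s, 𝔼 t ∈ s', γ p * (β t * F (sh x p) (sh' y t)) := by
    rw [swap4]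
    simp only [← mul_expect]
    refine wge g0 g1 fun p hp => wge b0 b1 fun t ht => ?_
    have h2 := (abs_le.1 (L1 (fun x => 𝔼 y ∈ B, F x y) (fun x => (abs_expect_le _ _).trans
      (expect_le hB fun y _ => hF x y)) p hp)).1
    have h3 : 𝔼 x ∈ B, ((𝔼 y ∈ B, F (sh x p) y) - ε * M) ≤
        𝔼 x ∈ B, 𝔼 y ∈ B, F (sh x p) (sh' y t) := expect_le_expect fun x _ => by
      linarith [(abs_le.1 (L2 (F (sh x p)) (hF _) t ht)).1]
    rw [expect_sub_distrib, expect_const hB] at h3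
    linarith
  have h2 : ∀ x y, 𝔼 p ∈ s, 𝔼 t ∈ s', γ p * (β t * F (sh x p) (sh' y t)) ≤
      2 * (τ * M) + (η' * (Nu x * Nv y) + M * ind (Gd x y)) := by
    intro x y
    have h3 : 𝔼 p ∈ s, 𝔼 t ∈ s', γ p * (β t * F (sh x p) (sh' y t)) ≤ 𝔼 p ∈ s, 𝔼 t ∈ s',
        ((τ * M * β t + τ * M * γ p) +
          γ p * (β t * (ind (Cu p) * ind (Cv t) * F (sh x p) (sh' y t)))) := by
      refine expect_le_expect fun p _ => expect_le_expect fun t _ => ?_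
      have h4 := mul_nonneg (mul_nonneg hτ hM) (b0 t)
      have h5 := mul_nonneg (mul_nonneg hτ hM) (g0 p)
      have h6 : γ p * (β t * F (sh x p) (sh' y t)) ≤ γ p * (β t * M) :=
        mul_le_mul_of_nonneg_left (mul_le_mul_of_nonneg_left (abs_le.1 (hF _ _)).2 (b0 t)) (g0 p)
      unfold ind
      by_cases h7 : Cu p
      · by_cases h8 : Cv t
        · rw [if_pos h7, if_pos h8]
          linarith
        · have h9 := mul_le_mul_of_nonneg_right (cv t h8) (mul_nonneg (g0 p) hM)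
          rw [if_neg h8]
          linarith
      · have h9 := mul_le_mul_of_nonneg_right (cu p h7) (mul_nonneg (b0 t) hM)
        rw [if_neg h7]
        linarith
    simp only [expect_add_distrib, expect_const hs, expect_const hs'] at h3
    rw [← mul_expect, ← mul_expect, g1, b1] at h3
    have h4 := mul_nonneg hη' (mul_nonneg (nu x) (nv y))
    by_cases h5 : Gd x y
    · have h6 : 𝔼 p ∈ s, 𝔼 t ∈ s',
          γ p * (β t * (ind (Cu p) * ind (Cv t) * F (sh x p) (sh' y t))) ≤ M := by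
        simp only [← mul_expect]
        refine wle g0 g1 fun p _ => ?_
        refine wle b0 b1 fun t _ => (le_abs_self _).trans ?_
        rw [abs_mul, abs_of_nonneg (mul_nonneg (ind_01 _).1 (ind_01 _).1)]
        exact (mul_le_of_le_one_left (abs_nonneg _)
          (mul_le_one₀ (ind_01 _).2 (ind_01 _).1 (ind_01 _).2)).trans (hF _ _)
      rw [show ind (Gd x y) = 1 from if_pos h5]
      linarith
    · have h6 := not_le.1 fun e => h5 (hG x y e)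
      rw [show ind (Gd x y) = 0 from if_neg h5]
      linarith
  have h3 := h1.trans (expect_le_expect fun x _ => expect_le_expect fun y _ => h2 x y)
  simp only [expect_add_distrib, expect_const hB, ← mul_expect, ← expect_mul] at h3
  have h4 : (𝔼 x ∈ B, Nu x) * 𝔼 x ∈ B, Nv x ≤ A * A :=
    mul_le_mul eu ev (expect_nonneg fun _ _ => nv _) ((expect_nonneg fun _ _ => nu _).trans eu)
  linarith [mul_le_mul_of_nonneg_left h4 hη']

end Locb

open Locb in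
theorem locb : LOCB := by
  intro Q _ n T T2 T3 T4 β0 β1 β2 u v h Λu Λv Cu Cv a b k1 k2 k S A τ θ η t4 t43 t32 t2 tQ e1 e2
    hk1 hk2 hS hA hτ hη b0 b1 b2 m0 m1 m2 cu cv hu hv hh lu lv elu elv eu ev hnum hη1 hbig
  have hT : 1 ≤ T := by omega
  have hB := bx_nonempty (Q := Q) (n := n) hT
  have n1 : ∀ p ∈ bx Q n T3 ×ˢ bx Q n T4, Near (k1 • (p.1 + p.2)) (36 * T2) := fun p hp => by
    have h1 := near_smul (j := 18) (near_add (near_of_mem_bx (mem_product.1 hp).1)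
      (near_of_mem_bx (mem_product.1 hp).2)) (by exact_mod_cast hk1 : |k1| ≤ ((18 : ℕ) : ℤ))
    rw [Int.cast_smul_eq_zsmul] at h1
    exact near_mono h1 (by omega)
  have n2 : ∀ t ∈ bx Q n T2, Near (k2 • t) (36 * T2) := fun t ht => by
    have h1 := near_smul (j := 18) (near_of_mem_bx ht)
      (by exact_mod_cast hk2 : |k2| ≤ ((18 : ℕ) : ℤ))
    rw [Int.cast_smul_eq_zsmul] at h1
    exact near_mono h1 (by omega)
  have g0 : ∀ p : V Q n × V Q n, 0 ≤ β1 p.1 * β2 p.2 := fun p => mul_nonneg (b1 _) (b2 _)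
  have g1 : 𝔼 p ∈ bx Q n T3 ×ˢ bx Q n T4, β1 p.1 * β2 p.2 = 1 := by
    rw [expect_product' _ _ fun x y => β1 x * β2 y, ← expect_mul_expect, m1, m2, one_mul]
  obtain ⟨ε, hε⟩ : ∃ ε : ℝ, ε = 2 * n * (36 * T2 : ℕ) / T := ⟨_, rfl⟩
  have hε0 : 0 ≤ ε := by rw [hε]; positivity
  have hS0 : 0 ≤ S := by linarith
  have s3 : S ≤ S ^ 3 := le_self_pow₀ hS (by norm_num)
  have hε1 : 10 * (ε * S ^ 3) + 10 * (τ * S ^ 3) ≤ η := by
    have h1 : (0 : ℝ) ≤ n * T2 / T * S ^ 3 := by positivity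
    have h2 : ε = 72 * (n * T2 / T) := by
      rw [hε]
      push_cast
      ring
    have h3 : (1000 * n * T2 / T + 10 * τ) * S ^ 3 =
        1000 * (n * T2 / T * S ^ 3) + 10 * (τ * S ^ 3) := by ring
    rw [h2, mul_assoc 72]
    linarith
  have hτ3 : 0 ≤ τ * S ^ 3 := by positivity
  have hεS : ε * S ≤ A := by
    have h1 := mul_le_mul_of_nonneg_left s3 hε0
    linarith
  have sh : ∀ w : V Q n → ℝ, (∀ x, 0 ≤ w x ∧ w x ≤ S) → 𝔼 x ∈ bx Q n T, w x ≤ A →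
      ∀ z, Near z (36 * T2) → 𝔼 x ∈ bx Q n T, w (x + z) ≤ 2 * A := fun w hw ew z hz => by
    have h1 := (abs_le.1 (fol_real hT tQ hz w fun x => abs_le.2
      ⟨by linarith [(hw x).1], (hw x).2⟩)).2
    rw [← hε] at h1
    linarith
  have key := core (B := bx Q n T) (s := bx Q n T3 ×ˢ bx Q n T4) (s' := bx Q n T2)
    (γ := fun p => β1 p.1 * β2 p.2) (β := β0) (sh := fun x p => x + k1 • (p.1 + p.2))
    (sh' := fun y t => y + k2 • t) (Cu := fun p => Cu (p.1 + p.2)) (Cv := Cv)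
    (F := fun x y => u x * v y * (h (a • x + b • y) - θ))
    (Nu := fun x => Λu x + 𝔼 p ∈ bx Q n T3 ×ˢ bx Q n T4,
      β1 p.1 * β2 p.2 * (ind (Cu (p.1 + p.2)) * u (x + k1 • (p.1 + p.2))))
    (Nv := fun y => Λv y + 𝔼 t ∈ bx Q n T2, β0 t * (ind (Cv t) * v (y + k2 • t)))
    (Gd := GLo T2 T3 T4 β0 β1 β2 u v h Λu Λv Cu Cv a b k1 k2 k θ (η / (36 * A ^ 2)))
    (ε := ε) (M := S ^ 3) (τ := τ) (η := η) (η' := η / (36 * A ^ 2)) (A := 3 * A) hB
    ((bx_nonempty (by omega)).product (bx_nonempty t4)) (bx_nonempty (by omega))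
    (fun g hg p hp => hε ▸ fol_real hT tQ (n1 p hp) g hg)
    (fun g hg t ht => hε ▸ fol_real hT tQ (n2 t ht) g hg) g0 g1 b0 m0
    (fun p hp => cu _ _ hp) cv hτ (by positivity)
    (fun x y => by
      rw [abs_mul, abs_mul, abs_of_nonneg (hu x).1, abs_of_nonneg (hv y).1, pow_succ, sq]
      exact mul_le_mul (mul_le_mul (hu x).2 (hv y).2 (hv y).1 hS0) (hh _) (abs_nonneg _)
        (by positivity))
    (by positivity)
    (fun x => add_nonneg (lu x).le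
      (expect_nonneg fun p _ => mul_nonneg (g0 p) (mul_nonneg (ind_01 _).1 (hu _).1)))
    (fun y => add_nonneg (lv y).le
      (expect_nonneg fun t _ => mul_nonneg (b0 t) (mul_nonneg (ind_01 _).1 (hv _).1)))
    (by
      have h1 := mean_le (B := bx Q n T) (sh := fun x p => x + k1 • (p.1 + p.2)) (u := u)
        (A := 2 * A) (γ := fun p : V Q n × V Q n => β1 p.1 * β2 p.2)
        (c := fun p => ind (Cu (p.1 + p.2))) g0 g1 (fun _ => (ind_01 _).2) (fun x => (hu x).1)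
        fun p hp => sh u hu eu _ (n1 p hp)
      rw [expect_add_distrib]
      linarith)
    (by
      have h1 := mean_le (B := bx Q n T) (sh := fun y t => y + k2 • t) (u := v) (A := 2 * A)
        (c := fun t => ind (Cv t)) b0 m0 (fun _ => (ind_01 _).2) (fun x => (hv x).1)
        fun t ht => sh v hv ev _ (n2 t ht)
      rw [expect_add_distrib]
      linarith)
    (fun x y hxy => ?_) hbig
  · have h1 : η / (36 * A ^ 2) * (3 * A * (3 * A)) = η / 4 := by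
      field_simp
      norm_num
    rw [div_le_iff₀ (by positivity)]
    have h2 : 0 ≤ ε * S ^ 3 := by positivity
    linarith
  obtain ⟨Ul, hUl⟩ : ∃ Ul, Ul = 𝔼 p ∈ bx Q n T3 ×ˢ bx Q n T4,
    β1 p.1 * β2 p.2 * (ind (Cu (p.1 + p.2)) * u (x + k1 • (p.1 + p.2))) := ⟨_, rfl⟩
  obtain ⟨Vl, hVl⟩ : ∃ Vl, Vl = 𝔼 t ∈ bx Q n T2, β0 t * (ind (Cv t) * v (y + k2 • t)) := ⟨_, rfl⟩
  have u0 : 0 ≤ Ul := hUl ▸
    expect_nonneg fun p _ => mul_nonneg (g0 p) (mul_nonneg (ind_01 _).1 (hu _).1)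
  have v0 : 0 ≤ Vl := hVl ▸
    expect_nonneg fun t _ => mul_nonneg (b0 t) (mul_nonneg (ind_01 _).1 (hv _).1)
  have u1 : 0 < Λu x + Ul := add_pos_of_pos_of_nonneg (lu x) u0
  have v1 : 0 < Λv y + Vl := add_pos_of_pos_of_nonneg (lv y) v0
  rw [← hUl, ← hVl] at hxy
  refine ⟨fun z => ind (Cu z) * u (x + k1 • z) / (Λu x + Ul),
    fun z => ind (Cv z) * v (y + k2 • z) / (Λv y + Vl), fun z => ?_, fun z => ?_, ?_, ?_, ?_⟩
  · have h1 := mul_nonneg (ind_01 (Cu z)).1 (hu (x + k1 • z)).1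
    exact ⟨div_nonneg h1 u1.le, div_le_div_of_nonneg_left h1 (lu x) (by linarith)⟩
  · have h1 := mul_nonneg (ind_01 (Cv z)).1 (hv (y + k2 • z)).1
    exact ⟨div_nonneg h1 v1.le, div_le_div_of_nonneg_left h1 (lv y) (by linarith)⟩
  · simp only [← mul_div_assoc, ← expect_div]
    rw [expect_product] at hUl
    rw [div_le_one u1]
    simp only [mul_assoc] at hUl ⊢
    linarith [lu x]
  · simp only [← mul_div_assoc, ← expect_div]
    rw [div_le_one v1]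
    linarith [lv y]
  · rw [← le_div_iff₀ (mul_pos u1 v1), expect_product] at hxy
    refine hxy.trans_eq ?_
    simp only [lf, expect_div]
    refine expect_congr rfl fun a1 _ => expect_congr rfl fun a2 _ => expect_congr rfl fun t _ => ?_
    have h1 : a • (x + k1 • (a1 + a2)) + b • (y + k2 • t) = a • x + b • y + k • (a1 + a2 + t) := by
      rw [smul_add a, smul_add b, smul_smul, smul_smul, e1, e2, smul_add k (a1 + a2)]
      abel
    rw [h1]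
    field_simp

end Vale.Agent.P057Z.Gr
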