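import Vale.Agent.P057Z.Gr.Num

/-! Block Gr: numerical facts for the choice of parameters. -/

set_option linter.all false

open Finset Real
open scoped BigOperators

namespace Vale.Agent.P057Z.Gr.Nu

noncomputable section

theorem dx {a b A B C : ℝ} (ha : a ≤ exp A) (hb : exp B ≤ b) (h : A ≤ C + B) : a / b ≤ exp C :=
  (div_le_iff₀ ((exp_pos _).trans_le hb)).2 (ha.trans ((exp_le_exp.2 h).trans
    (exp_add C B ▸ mul_le_mul_of_nonneg_left hb (exp_pos C).le)))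

theorem ratio {n a b W : ℕ} {A Z : ℝ} (h : a * W ≤ b) (hb : 1 ≤ b) (hW : exp A ≤ W)
    (hn : (n : ℝ) ≤ Z) : (n : ℝ) * a / b ≤ exp (Z - A) := by
  have h1 : (a : ℝ) * W ≤ b := by exact_mod_cast h
  have h2 : (0 : ℝ) < b := by exact_mod_cast hb
  have h3 : (a : ℝ) / b ≤ exp (-A) := by
    rw [div_le_iff₀ h2, exp_neg, le_inv_mul_iff₀ (exp_pos _), mul_comm]
    exact (mul_le_mul_of_nonneg_left hW (by positivity)).trans h1
  rw [mul_div_assoc]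
  exact xx (A := Z) (by linarith [add_one_le_exp Z]) h3 (by positivity) (by linarith)

/-- the large powers -/
theorem big {X Y Z : ℝ} {c k : ℕ} (hX : 1000 ≤ X) (h1 : X ≤ Y) (h2 : Y ≤ Z) (hc : c ≤ k) :
    (0 ≤ (X ^ 4) ^ c ∧ X + (X ^ 4) ^ c ≤ X ^ (4 * k + 1000)) ∧
    (1 ≤ (Y ^ 4) ^ k ∧ 1000 * ((Y ^ 4) ^ k + Y ^ 6) ≤ Y ^ (4 * k + 1000) ∧
      100 * ((Y ^ 4) ^ k + Y ^ 6 + Z) ≤ Z ^ (4 * k + 10)) ∧
    (Z ^ 4) ^ k ≤ Z ^ (4 * k + 10) ∧ 1000 * Z ^ (4 * k + 10) ≤ Z ^ (4 * k + 1000) ∧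
    X ≤ X ^ 4 ∧ X ^ 4 ≤ Y ^ 4 ∧ Y ^ 4 ≤ Z ^ 4 ∧ Z ≤ Z ^ 4 := by
  have m : ∀ {t : ℝ} {i j : ℕ}, 1000 ≤ t → i ≤ j → t ^ i ≤ t ^ j := fun ht h =>
    pow_le_pow_right₀ (by linarith) h
  have hY := hX.trans h1
  have hZ := hY.trans h2
  have x1 : X ^ 1 ≤ X ^ (4 * k + 1) := m hX (by omega)
  have x2 : X ^ (4 * c) ≤ X ^ (4 * k + 1) := m hX (by omega)
  have x3 := step hX (4 * k + 1)
  have x4 : X ^ (4 * k + 1 + 1) ≤ X ^ (4 * k + 1000) := m hX (by omega)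
  have y1 : Y ^ (4 * k) ≤ Y ^ (4 * k + 6) := m hY (by omega)
  have y2 : Y ^ 6 ≤ Y ^ (4 * k + 6) := m hY (by omega)
  have y3 := step hY (4 * k + 6)
  have y4 := step hY (4 * k + 6 + 1)
  have y5 : Y ^ (4 * k + 6 + 1 + 1) ≤ Y ^ (4 * k + 1000) := m hY (by omega)
  have y6 : Y ^ (4 * k + 6) ≤ Z ^ (4 * k + 6) := pow_le_pow_left₀ (by linarith) h2 _
  have z1 : Z ^ 1 ≤ Z ^ (4 * k + 6) := m hZ (by omega)
  have z2 := step hZ (4 * k + 6)
  have z3 : Z ^ (4 * k + 6 + 1) ≤ Z ^ (4 * k + 10) := m hZ (by omega)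
  have z4 := step hZ (4 * k + 10)
  have z5 : Z ^ (4 * k + 10 + 1) ≤ Z ^ (4 * k + 1000) := m hZ (by omega)
  have p1 : 0 ≤ Y ^ (4 * k + 6) := by positivity
  have p2 : 0 ≤ X ^ (4 * c) := by positivity
  rw [pow_one] at x1 z1
  simp only [← pow_mul]
  exact ⟨⟨p2, by linarith⟩, ⟨one_le_pow₀ (by linarith), by linarith, by linarith⟩,
    m hZ (by omega), by linarith, by simpa using m hX (show 1 ≤ 4 by omega),
    pow_le_pow_left₀ (by linarith) h1 4, pow_le_pow_left₀ (by linarith) h2 4,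
    by simpa using m hZ (show 1 ≤ 4 by omega)⟩

/-- the numerical conditions of SEL -/
theorem seln {X Y δ : ℝ} {N p : ℕ} (hX : 1000 ≤ X) (h : X ≤ Y) (hN : (N : ℝ) ≤ X)
    (hp : (p : ℝ) ≤ X) (hδ : δ ≤ exp (-Y ^ 6)) :
    100 * ((N + 1) * (p + 1) : ℕ) * (exp (Y ^ 3) * exp X) ^ (5 * ((N + 1) * (p + 1))) * δ ≤ 1 ∧
    exp (-Y ^ 6) ≤ 1 / (4 * (exp (Y ^ 3) * exp X) ^ (4 * ((N + 1) * (p + 1)))) ∧
    2 * exp X ^ (N * p) ≤ 2 * exp (X ^ 3) ∧ exp (-(2 * X)) ≤ 1 / 2 ^ (p + 3) := by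
  obtain ⟨⟨_, _, _⟩, ⟨_, _, _, _, _⟩, _, _, _⟩ := pows hX h
  have m : (((N + 1) * (p + 1) : ℕ) : ℝ) ≤ 4 * Y ^ 2 := by
    have := mul_le_mul (show (N : ℝ) + 1 ≤ 2 * Y by linarith) (show (p : ℝ) + 1 ≤ 2 * Y by linarith)
      (by positivity) (by linarith)
    push_cast
    linarith
  have a : ∀ k : ℕ, k ≤ 5 → (exp (Y ^ 3) * exp X) ^ (k * ((N + 1) * (p + 1))) ≤ exp (40 * Y ^ 5) := by
    intro k hk
    have k1 : (k : ℝ) ≤ 5 := by exact_mod_cast hk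
    have := mul_le_mul_of_nonneg_left (show X ≤ Y ^ 3 by linarith) (sq_nonneg Y)
    rw [← exp_add]
    refine (pow_exp (a := 5 * (4 * Y ^ 2)) ?_ (by linarith)).trans (exp_le_exp.2 (by linarith))
    rw [Nat.cast_mul]
    exact mul_le_mul k1 m (by positivity) (by norm_num)
  refine ⟨(mul_le_mul_of_nonneg_left hδ (by positivity)).trans ((xx (xx (A := Y ^ 3)
    (by linarith [add_one_le_exp (Y ^ 3)]) (a 5 le_rfl) (by positivity) le_rfl) le_rfl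
    (exp_pos _).le (by linarith)).trans exp_zero.le), xd exp_zero.le (xx (A := X)
    (by linarith [add_one_le_exp X]) (a 4 (by omega)) (by positivity) le_rfl) (by positivity)
    (by linarith), mul_le_mul_of_nonneg_left ((pow_exp (a := X * X) ?_ (by linarith)).trans_eq
    (by ring_nf)) zero_le_two, xd exp_zero.le (two_pow (X := 2 * X) (by push_cast; linarith))
    (by positivity) (by linarith)⟩
  rw [Nat.cast_mul]
  exact mul_le_mul hN hp (by positivity) (by linarith)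

theorem near_one {X A t : ℝ} {N : ℕ} (hX : 1000 ≤ X) (hA : 2 * X ≤ A) (hN : (N : ℝ) ≤ X)
    (h0 : 0 ≤ t) (h : |t - 1| ≤ exp (-A)) : t ≤ 3 / 2 ∧ t ^ N ≤ 2 := by
  have a : X * exp (-A) ≤ exp (-X) :=
    xx (A := X) (by linarith [add_one_le_exp X]) le_rfl (exp_pos _).le (by linarith)
  have b : 2 * exp (-X) ≤ exp 0 := cx hX (by norm_num) (by linarith)
  have c := (abs_le.1 h).2
  have e := exp_pos (-A)
  have f : t ^ N ≤ exp (X * exp (-A)) := (pow_le_pow_left₀ h0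
    (show t ≤ exp (exp (-A)) by linarith [add_one_le_exp (exp (-A))]) N).trans (pow_exp hN e.le)
  have g : exp (1 / 2) * exp (-(1 / 2)) = (1 : ℝ) := by rw [← exp_add]; simp
  have k := add_one_le_exp (-(1 / 2) : ℝ)
  rw [exp_zero] at b
  exact ⟨by nlinarith, f.trans ((exp_le_exp.2 (show _ ≤ 1 / 2 by linarith)).trans
    (by nlinarith [exp_pos (1 / 2 : ℝ)]))⟩

end

end Vale.Agent.P057Z.Gr.Nu
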