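import Vale.Agent.P057Z.Gr.Sk

/-! Block Gr: small tools and numerical facts. -/

set_option linter.all false

open Finset Real
open scoped BigOperators

namespace Vale.Agent.P057Z.Gr.Nu

noncomputable section

theorem ind_pos {p : Prop} (h : p) : ind p = 1 := if_pos h

theorem ind_neg {p : Prop} (h : ¬ p) : ind p = 0 := if_neg h

theorem ind_01 (p : Prop) : 0 ≤ ind p ∧ ind p ≤ 1 := by
  by_cases h : p
  · simp [ind_pos h]
  · simp [ind_neg h]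

theorem ind_mono {p q : Prop} (h : p → q) : ind p ≤ ind q := by
  by_cases k : p
  · rw [ind_pos k, ind_pos (h k)]
  · rw [ind_neg k]
    exact (ind_01 q).1

theorem ind_mul_le {p : Prop} {a b : ℝ} (h : p → a ≤ b) (hb : 0 ≤ b) : ind p * a ≤ b := by
  by_cases k : p
  · rw [ind_pos k, one_mul]
    exact h k
  · rwa [ind_neg k, zero_mul]

theorem chain {α β : Type} {s : Finset α} {s' : Finset β} {P : α → β → Prop} {A : α → β → ℝ}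
    {κ κ' : ℝ} (h : κ ≤ 𝔼 x ∈ s, 𝔼 y ∈ s', ind (P x y)) (h0 : 0 ≤ κ')
    (h1 : ∀ x y, P x y → κ' ≤ A x y) (h2 : ∀ x y, 0 ≤ A x y) :
    κ * κ' ≤ 𝔼 x ∈ s, 𝔼 y ∈ s', A x y := by
  refine (mul_le_mul_of_nonneg_right h h0).trans ?_
  simp only [expect_mul]
  exact expect_le_expect fun x _ => expect_le_expect fun y _ => ind_mul_le (h1 x y) (h2 x y)

theorem pick {α β : Type} {s : Finset α} {s' : Finset β} (hs : s'.Nonempty) {F : α → β → ℝ} {κ : ℝ}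
    (h : κ ≤ 𝔼 x ∈ s, 𝔼 y ∈ s', F x y) : ∃ y ∈ s', κ ≤ 𝔼 x ∈ s, F x y := by
  rw [expect_comm] at h
  exact exists_le_of_le_expect hs h

theorem pw_ne {α : Type} {s : Finset α} (hs : s.Nonempty) (k : ℕ) : (pw s k).Nonempty :=
  Fintype.piFinset_nonempty.2 fun _ => hs

theorem mix_mono {Q : ℕ} [Fact Q.Prime] {n : ℕ} {om : V Q n → ℝ} {a b a' b' : ℕ} {δ δ' : ℝ}
    (h : Mix om a b δ) (ha : a ≤ a') (hb : b' ≤ b) (hδ : δ ≤ δ') : Mix om a' b' δ' :=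
  fun T1 T2 h1 h2 h3 h4 c s hs u v hu hv =>
    (h T1 T2 (ha.trans h1) (h2.trans hb) (ha.trans h3) (h4.trans hb) c s hs u v hu hv).trans hδ

theorem pow_exp {a b : ℝ} {k : ℕ} (hk : (k : ℝ) ≤ a) (hb : 0 ≤ b) : exp b ^ k ≤ exp (a * b) := by
  rw [← exp_nat_mul]
  exact exp_le_exp.2 (mul_le_mul_of_nonneg_right hk hb)

theorem prod_exp {a b : ℝ} {k : ℕ} {F : Fin k → ℝ} (h : ∀ i, 0 ≤ F i ∧ F i ≤ exp b)
    (hk : (k : ℝ) ≤ a) (hb : 0 ≤ b) : 0 ≤ ∏ i, F i ∧ ∏ i, F i ≤ exp (a * b) :=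
  ⟨prod_nonneg fun i _ => (h i).1, (prod_le_prod (fun i _ => (h i).1) fun i _ => (h i).2).trans
    (by simpa using pow_exp hk hb)⟩

theorem st_exp {α : Type} {ν : α → ℝ} {e : α → α → ℝ} {a b : ℝ} {k : ℕ} (z : Fin k → α) {x : α}
    (hν : 0 ≤ ν x) (he : ∀ x y, 0 ≤ e x y ∧ e x y ≤ exp b) (hk : (k : ℝ) ≤ a) (hb : 0 ≤ b) :
    0 ≤ st ν e z x ∧ st ν e z x ≤ ν x * exp (a * b) :=
  have h := prod_exp (fun i => he x (z i)) hk hb
  ⟨mul_nonneg hν h.1, mul_le_mul_of_nonneg_left h.2 hν⟩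

theorem cx {X c A B : ℝ} (hX : 1000 ≤ X) (hc : c ≤ 1000) (h : X + A ≤ B) : c * exp A ≤ exp B := by
  have h1 : c ≤ exp X := by linarith [add_one_le_exp X]
  exact (mul_le_mul_of_nonneg_right h1 (exp_pos A).le).trans (exp_add X A ▸ exp_le_exp.2 h)

theorem xx {a b A B C : ℝ} (ha : a ≤ exp A) (hb : b ≤ exp B) (h0 : 0 ≤ b) (h : A + B ≤ C) :
    a * b ≤ exp C :=
  (mul_le_mul ha hb h0 (exp_pos A).le).trans (exp_add A B ▸ exp_le_exp.2 h)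

theorem xd {a b A B C : ℝ} (ha : exp A ≤ a) (hb : b ≤ exp B) (h0 : 0 < b) (h : C + B ≤ A) :
    exp C ≤ a / b :=
  (le_div_iff₀ h0).2 ((xx le_rfl hb h0.le h).trans ha)

theorem step {X : ℝ} (hX : 1000 ≤ X) (k : ℕ) : 1000 * X ^ k ≤ X ^ (k + 1) := by
  rw [pow_succ']
  exact mul_le_mul_of_nonneg_right hX (by positivity)

/-- the chain of powers -/
theorem pows {X Y : ℝ} (hX : 1000 ≤ X) (h : X ≤ Y) :
    (1000 * X ≤ X ^ 2 ∧ 1000 * X ^ 2 ≤ X ^ 3 ∧ 1000 * X ^ 3 ≤ X ^ 4) ∧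
    (1000 * Y ≤ Y ^ 2 ∧ 1000 * Y ^ 2 ≤ Y ^ 3 ∧ 1000 * Y ^ 3 ≤ Y ^ 4 ∧ 1000 * Y ^ 4 ≤ Y ^ 5 ∧
      1000 * Y ^ 5 ≤ Y ^ 6) ∧ X ^ 3 ≤ Y ^ 3 ∧ X ^ 4 ≤ Y ^ 4 ∧ X * Y ^ 3 ≤ Y ^ 4 := by
  have hY := hX.trans h
  have h0 : 0 ≤ X := by linarith
  refine ⟨⟨by simpa using step hX 1, step hX 2, step hX 3⟩, ⟨by simpa using step hY 1, step hY 2,
    step hY 3, step hY 4, step hY 5⟩, pow_le_pow_left₀ h0 h 3, pow_le_pow_left₀ h0 h 4, ?_⟩
  rw [pow_succ' Y 3]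
  exact mul_le_mul_of_nonneg_right h (by positivity)

theorem mass_lb {Y ρ : ℝ} {k : ℕ} (hY : 1000 ≤ Y) (hρ : exp (-(2 * Y)) ≤ ρ)
    (hk : (k : ℝ) ≤ 3 * Y ^ 2) : exp (-(3 * Y * k + 5)) ≤ (ρ / (3 * (k + 1))) ^ k / 6 := by
  have h1 : 3 * ((k : ℝ) + 1) ≤ exp Y := by
    have := pow_div_factorial_le_exp Y (by linarith) 3
    have h2 := step hY 2
    have h3 := step hY 1
    norm_num [Nat.factorial] at this h2 h3
    linarith
  have h2 : exp (-(3 * Y)) ≤ ρ / (3 * (k + 1)) := xd hρ h1 (by positivity) (by linarith)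
  have h3 := pow_le_pow_left₀ (exp_pos _).le h2 k
  rw [← exp_nat_mul] at h3
  exact xd h3 (B := 5) (by linarith [add_one_le_exp (5 : ℝ)]) (by norm_num) (by linarith)

theorem two_pow {X : ℝ} {k : ℕ} (hk : (k : ℝ) ≤ X) : (2 : ℝ) ^ k ≤ exp X :=
  (pow_le_pow_left₀ zero_le_two (show (2 : ℝ) ≤ exp 1 by linarith [add_one_le_exp (1 : ℝ)]) k).trans
    (by simpa using pow_exp hk zero_le_one)

theorem gain {e : ℝ} {N : ℕ} (h0 : 0 < e) (h1 : e ≤ 1) (h : 100 ≤ e * N) :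
    8 ≤ (1 + e) ^ N ∧ (1 + e / 4) ^ N ≤ (1 - 1 / 100) * ((1 + e) ^ N / 16 / 2) := by
  have a := one_add_mul_le_pow (show (-2 : ℝ) ≤ e by linarith) N
  have b := one_add_mul_le_pow (show (-2 : ℝ) ≤ e / 2 by linarith) N
  have c : ((1 + e / 4) * (1 + e / 2)) ^ N ≤ (1 + e) ^ N :=
    pow_le_pow_left₀ (by positivity) (by nlinarith) N
  have d : 0 < (1 + e / 4) ^ N := by positivity
  rw [mul_pow] at c
  exact ⟨by linarith, by nlinarith⟩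

theorem div_step (T W i : ℕ) : T / W ^ (i + 1) * W ≤ T / W ^ i := by
  rw [pow_succ, ← Nat.div_div_eq_div_mul]
  exact Nat.div_mul_le_self _ _

theorem div_anti (T : ℕ) {W i j : ℕ} (hW : 1 ≤ W) (h : i ≤ j) : T / W ^ j ≤ T / W ^ i :=
  Nat.div_le_div_left (Nat.pow_le_pow_right hW h) (by positivity)

theorem pow_le_of_log {T W : ℕ} {a : ℝ} (hW : 2 ≤ W) (ha : 20 ≤ a) (h : a * log W ≤ log T) :
    W ^ 20 ≤ T := by
  have h1 : (1 : ℝ) < W := by exact_mod_cast hW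
  have h2 := log_pos h1
  have h3 : log ((W : ℝ) ^ 20) ≤ log T := by
    rw [log_pow]
    push_cast
    nlinarith
  have h4 : (0 : ℝ) < T := by
    rcases Nat.eq_zero_or_pos T with e | e
    · rw [e, Nat.cast_zero, log_zero] at h
      nlinarith
    · exact_mod_cast e
  exact_mod_cast (log_le_log_iff (by positivity) h4).1 h3

end

end Vale.Agent.P057Z.Gr.Nu
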