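import Vale.Agent.P057Z.Gr.Num

/-! Block Gr: one good tuple. -/

set_option linter.all false

open Finset Real
open scoped BigOperators

namespace Vale.Agent.P057Z.Gr

open Nu Ke

noncomputable section

/-- the data of the step -/
structure Dt (Q n : ℕ) (ι : Type) where
  (X Y ρ ρ0 ρ4 ρn ρ5 δ κ m m0 : ℝ)
  (T T2 T3 T4 T6 r : ℕ)
  f : V Q n → ℝ
  B : Bil Q n ι
  φ : (ι → ZMod Q) → ℝ
  φ0 : (ι → ZMod Q) → ℝ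
  x0 : V Q n
  ℓ : V Q n →ₗ[ZMod Q] (ι → ZMod Q)
  (a b c : ℤ)

namespace Dt

variable {Q : ℕ} [Fact Q.Prime] {n : ℕ} {ι : Type} [Fintype ι] [DecidableEq ι] (d : Dt Q n ι)
  {N j : ℕ}

def om (x : V Q n) : ℝ := d.φ0 ((12 : ZMod Q)⁻¹ • d.B x x) / d.m0
def ν (x : V Q n) : ℝ := d.φ (d.ℓ x) * d.φ0 ((12 : ZMod Q)⁻¹ • d.B x x) / (d.m * d.m0)
def ν' (x : V Q n) : ℝ := d.φ (d.ℓ x) / d.m
def e (x y : V Q n) : ℝ := d.φ (d.B x y) / d.m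
def g (x y w : V Q n) : ℝ := d.f (d.x0 + d.a • x + d.b • y + d.c • w)
def χ (s : V Q n) : ℝ := d.φ (((2 * d.a * d.b : ℤ) : ZMod Q)⁻¹ • d.B s s) / d.m
def gw (w : Fin N → V Q n) (s : V Q n) : ℝ := ∏ l, d.f (d.x0 + d.c • w l + s)
def k : ℤ := 6 * d.a * d.b

/-- the blocks of linear frequencies -/
def Lk (w : Fin N → V Q n) (y : Fin j → V Q n) :
    Option (Fin N) ⊕ Fin j → V Q n →ₗ[ZMod Q] (ι → ZMod Q) :=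
  Sum.elim (fun o => o.elim d.ℓ fun l => d.B (w l)) fun i => d.B (y i)

def L (w : Fin N → V Q n) (y : Fin j → V Q n) :
    V Q n →ₗ[ZMod Q] ((Option (Fin N) ⊕ Fin j) × ι → ZMod Q) :=
  LinearMap.pi fun p => (LinearMap.proj p.2).comp (d.Lk w y p.1)

def Y1 (y : Fin j → V Q n) (x1 y1 z t2 t : V Q n) : ℝ :=
  d.χ (d.a • x1 + d.b • y1 + d.k • (z + t - t2)) *
    (lap d.ρ5 (d.ℓ (t - t2)) * ∏ i, lap d.ρ5 (d.B (y i) (t - t2)))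

def p0 (x1 y1 z t2 : V Q n) : V Q n := d.x0 + d.a • x1 + d.b • y1 + d.k • (z - t2)

/-- the test -/
def TS (θ0 : ℝ) (w : Fin N → V Q n) (y : Fin j → V Q n) (x1 y1 z t2 : V Q n) : Prop :=
  ∃ ξ : Fin d.r → V Q n, d.κ ≤ 𝔼 t ∈ bx Q n d.T6, d.Y1 y x1 y1 z t2 t *
    lap d.ρn (fun i => ξ i ⬝ᵥ (t - t2)) * (∏ l, lap d.ρ5 (d.B (w l) (t - t2))) *
      (∏ l, d.f (d.p0 x1 y1 z t2 + d.c • w l + d.k • t) - θ0)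

/-- KM for the parameters of the step -/
def KMs : Prop :=
  ∀ (κ : Type) [Fintype κ] [DecidableEq κ] (L : V Q n →ₗ[ZMod Q] (κ → ZMod Q))
    (c0 c1 c2 : κ → ZMod Q) (θ : ℝ) (om2 om3 χ u v g : V Q n → ℝ), (Fintype.card κ : ℝ) ≤ d.Y ^ 4 →
    exp (-d.Y ^ 4) ≤ mas L c0 d.ρ0 d.T2 → exp (-d.Y ^ 4) ≤ mas L c1 d.ρ0 d.T3 →
    exp (-d.Y ^ 4) ≤ mas L c2 d.ρ4 d.T4 →
    (∀ x, 0 ≤ om2 x ∧ om2 x ≤ exp (d.Y ^ 4)) → (∀ x, 0 ≤ om3 x ∧ om3 x ≤ exp (d.Y ^ 4)) →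
    (∀ x, 0 ≤ χ x ∧ χ x ≤ exp (d.Y ^ 4)) → Mix om2 d.T6 (2 * d.T2) d.δ →
    Mix om3 d.T6 (2 * d.T2) d.δ → Mix χ d.T6 (2 * d.T2) d.δ →
    (∀ x, 0 ≤ u x ∧ u x ≤ exp (d.X ^ 4) * om2 x) → (∀ x, 0 ≤ v x ∧ v x ≤ exp (d.X ^ 4) * om3 x) →
    (∀ x, 0 ≤ g x ∧ g x ≤ exp (d.X ^ 4)) → exp (-d.X ^ 4) ≤ θ →
    exp (-d.X ^ 4) ≤ 𝔼 a1 ∈ bx Q n d.T3, 𝔼 a2 ∈ bx Q n d.T4,
      bet L c1 d.ρ0 d.T3 a1 * bet L c2 d.ρ4 d.T4 a2 * u (a1 + a2) →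
    exp (-d.X ^ 4) ≤ 𝔼 t ∈ bx Q n d.T2, bet L c0 d.ρ0 d.T2 t * v t →
    θ * (𝔼 a1 ∈ bx Q n d.T3, 𝔼 a2 ∈ bx Q n d.T4,
        bet L c1 d.ρ0 d.T3 a1 * bet L c2 d.ρ4 d.T4 a2 * u (a1 + a2)) *
        (𝔼 t ∈ bx Q n d.T2, bet L c0 d.ρ0 d.T2 t * v t) ≤
      𝔼 a1 ∈ bx Q n d.T3, 𝔼 a2 ∈ bx Q n d.T4, 𝔼 t ∈ bx Q n d.T2,
        bet L c1 d.ρ0 d.T3 a1 * bet L c2 d.ρ4 d.T4 a2 * bet L c0 d.ρ0 d.T2 t * u (a1 + a2) * v t *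
          (g (a1 + a2 + t) * χ (a1 + a2 + t)) →
    ∃ ξ : Fin d.r → V Q n, d.κ ≤ 𝔼 z ∈ bx Q n d.T2, 𝔼 t2 ∈ bx Q n d.T6,
      ind (d.κ ≤ 𝔼 t1 ∈ bx Q n d.T6, lap d.ρn (fun i => ξ i ⬝ᵥ (t1 - t2)) *
        lap d.ρ5 (L (t1 - t2)) * χ (z + t1 - t2) * (g (z + t1 - t2) - (1 - 1 / 100) * θ))

structure Ok : Prop where
  x : 1000 ≤ d.X
  xy : d.X ≤ d.Y
  card : (Fintype.card ι : ℝ) ≤ d.Y
  q : 1000 < Q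
  f : ∀ x, 0 ≤ d.f x ∧ d.f x ≤ exp d.X
  sym : ∀ x y, d.B x y = d.B y x
  ll : LL (1 / d.ρ) d.φ
  p0 : ∀ u, 0 ≤ d.φ0 u ∧ d.φ0 u ≤ 1 ∧ d.φ0 u ≤ 2 * lap d.ρ0 u
  m : exp (-(4 * d.Y ^ 2)) ≤ d.m
  m0 : exp (-(4 * d.Y ^ 2)) ≤ d.m0
  r4 : exp (-(2 * d.Y)) ≤ d.ρ4
  r0 : d.ρ4 ≤ d.ρ0
  r1 : d.ρ0 ≤ 1
  r : 72 * (d.Y ^ 6 * d.ρ0) ≤ d.ρ
  a : d.a ≠ 0 ∧ |d.a| ≤ 3
  b : d.b ≠ 0 ∧ |d.b| ≤ 3
  t : 1 ≤ d.T6 ∧ d.T6 ≤ d.T4 ∧ d.T4 ≤ d.T3 ∧ d.T3 ≤ d.T2 ∧ d.T2 ≤ d.T ∧ d.T ≤ Q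
  fol : (n : ℝ) * d.T2 / d.T ≤ exp (-d.Y ^ 6)
  δ : d.δ ≤ exp (-d.Y ^ 6)
  κ : 0 ≤ d.κ
  mix : ∀ (x1 : V Q n) (k : ℤ), k ≠ 0 → |k| ≤ 3 → Mix (fun z => d.om (x1 + (6 * k) • z)) d.T6 (2 * d.T2) d.δ
  mixχ : ∀ s, Mix (fun z => d.χ (s + d.k • z)) d.T6 (2 * d.T2) d.δ
  km : d.KMs

variable {d} (ok : d.Ok)
include ok

theorem Ok.dm {t : ℝ} (h0 : 0 ≤ t) (h1 : t ≤ 1) :
    (0 ≤ t / d.m ∧ t / d.m ≤ exp (4 * d.Y ^ 2)) ∧ 0 ≤ t / d.m0 ∧ t / d.m0 ≤ exp (4 * d.Y ^ 2) := by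
  have k : ∀ m, exp (-(4 * d.Y ^ 2)) ≤ m → 0 ≤ t / m ∧ t / m ≤ exp (4 * d.Y ^ 2) := fun m hm =>
    have := (exp_pos _).trans_le hm
    ⟨by positivity, (div_le_iff₀ this).2 (h1.trans (by
      have h := mul_le_mul_of_nonneg_left hm (exp_pos (4 * d.Y ^ 2)).le
      rwa [← exp_add, add_neg_cancel, exp_zero] at h))⟩
  exact ⟨k _ ok.m, k _ ok.m0⟩

theorem Ok.dφ (u : ι → ZMod Q) : 0 ≤ d.φ u / d.m ∧ d.φ u / d.m ≤ exp (d.Y ^ 3) := by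
  have h := (ok.dm (ok.ll.pos u).le (ok.ll.le_one u)).1
  obtain ⟨-, ⟨_, _, _⟩, -⟩ := pows ok.x ok.xy
  exact ⟨h.1, h.2.trans (exp_le_exp.2 (by nlinarith [sq_nonneg d.Y]))⟩

theorem Ok.dom (x : V Q n) : 0 ≤ d.om x ∧ d.om x ≤ exp (4 * d.Y ^ 2) :=
  (ok.dm (ok.p0 _).1 (ok.p0 _).2.1).2

omit ok in
theorem ν_eq (x : V Q n) : d.ν x = d.ν' x * d.om x := (div_mul_div_comm _ _ _ _).symm

theorem Ok.dν (x : V Q n) : 0 ≤ d.ν x ∧ d.ν x ≤ exp (d.Y ^ 3) := by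
  have h := (ok.dm (ok.ll.pos (d.ℓ x)).le (ok.ll.le_one _)).1
  have h' := ok.dom x
  obtain ⟨-, ⟨_, _, _⟩, -⟩ := pows ok.x ok.xy
  rw [ν_eq]
  exact ⟨mul_nonneg h.1 h'.1, xx h.2 h'.2 h'.1 (by nlinarith [sq_nonneg d.Y])⟩

theorem Ok.off {x : V Q n} (h : ¬ l1 ((12 : ZMod Q)⁻¹ • d.B x x) ≤ d.Y ^ 6 * d.ρ0) :
    d.ν x ≤ exp (d.Y ^ 4 - d.Y ^ 6) := by
  have h0 := ((exp_pos _).trans_le ok.r4).trans_le ok.r0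
  have h1 : d.φ0 ((12 : ZMod Q)⁻¹ • d.B x x) ≤ 2 * exp (-d.Y ^ 6) := (ok.p0 _).2.2.trans (by
    rw [lap]
    gcongr
    rw [div_le_iff₀ h0]
    linarith [not_le.1 h])
  have h2 := (ok.dm zero_le_one le_rfl).2
  obtain ⟨-, ⟨_, _, _, _⟩, -⟩ := pows ok.x ok.xy
  have hx := ok.x
  have hxy := ok.xy
  rw [ν_eq, om, div_eq_mul_one_div (d.φ0 _)]
  exact xx (ok.dφ _).2 (xx (h1.trans (cx ok.x (by norm_num) le_rfl)) h2.2 h2.1 le_rfl)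
    (mul_nonneg (ok.p0 _).1 h2.1) (by linarith)

theorem Ok.lin (hC : CHI) (w : Fin N → V Q n) (y : Fin j → V Q n) {x p z : V Q n} {k : ℤ}
    (hk : |k| ≤ 18) (hz : l1 (d.L w y z - d.L w y p) ≤ d.Y ^ 6 * d.ρ0) :
    st (st d.ν' d.e w) d.e y (x + k • z) ≤ 2 * st (st d.ν' d.e w) d.e y (x + k • p) ∧
      st d.ν' d.e w (x + k • z) ≤ 2 * st d.ν' d.e w (x + k • p) := by
  have h0 := ((exp_pos _).trans_le ok.r4).trans_le ok.r0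
  have hY : 0 < d.Y := by linarith [ok.x, ok.xy]
  have hρ : 0 < d.ρ := lt_of_lt_of_le (by positivity) ok.r
  have hm := (exp_pos _).trans_le ok.m
  have e : d.L w y (x + k • p) + k • (d.L w y z - d.L w y p) = d.L w y (x + k • z) := by
    simp only [map_add, map_zsmul, smul_sub]
    abel
  have h := fun s => hC.lin Q ι _ d.φ d.ρ _ s (d.L w y (x + k • p)) _ k hρ ok.ll hk ok.r hz
  rw [e] at h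
  have h1 := h univ
  have h2 := h (univ.map .inl)
  simp only [prod_map, Fintype.prod_sum_type, Fintype.prod_option, Function.Embedding.inl_apply,
    L, Lk, LinearMap.pi_apply, LinearMap.comp_apply, LinearMap.proj_apply, Sum.elim_inl,
    Sum.elim_inr, Option.elim] at h1 h2
  simp only [st, ν', Dt.e, div_eq_mul_inv, prod_mul_distrib, prod_const, card_univ,
    Fintype.card_fin, ok.sym (x + _)]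
  have k1 := mul_le_mul_of_nonneg_right h1 (show 0 ≤ d.m⁻¹ * d.m⁻¹ ^ N * d.m⁻¹ ^ j by positivity)
  have k2 := mul_le_mul_of_nonneg_right h2 (show 0 ≤ d.m⁻¹ * d.m⁻¹ ^ N by positivity)
  exact ⟨by linarith, by linarith⟩

theorem Ok.mass (hP : POP) {κ : Type} [Fintype κ] [DecidableEq κ]
    (L : V Q n →ₗ[ZMod Q] (κ → ZMod Q)) (hκ : (Fintype.card κ : ℝ) ≤ 3 * d.Y ^ 2) {ρ : ℝ}
    (h : d.ρ4 ≤ ρ) (h1 : ρ ≤ 1) {T : ℕ} (hT : 1 ≤ T) :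
    ∃ p ∈ bx Q n T, exp (-d.Y ^ 4) ≤ mas L (L p) ρ T := by
  have h0 := ((exp_pos _).trans_le ok.r4).trans_le h
  obtain ⟨p, hp, k⟩ := (hP Q κ ρ h0 h1).1 _ (bx Q n T) L (bx_nonempty hT)
  have hY := ok.x.trans ok.xy
  obtain ⟨-, ⟨_, _, _, _⟩, -⟩ := pows ok.x ok.xy
  have h3 := mul_le_mul_of_nonneg_left hκ (show 0 ≤ 3 * d.Y by linarith)
  refine ⟨p, hp, ((exp_le_exp.2 (by nlinarith)).trans (mass_lb hY (ok.r4.trans h) hκ)).trans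
    (le_trans ?_ k)⟩
  gcongr
  norm_num

omit ok in
theorem bet_facts {κ : Type} [Fintype κ] [DecidableEq κ] {L : V Q n →ₗ[ZMod Q] (κ → ZMod Q)}
    {c : κ → ZMod Q} {ρ A : ℝ} {T : ℕ} (h0 : 0 < ρ) (h : exp (-A) ≤ mas L c ρ T) :
    (∀ x, 0 ≤ bet L c ρ T x ∧ bet L c ρ T x ≤ lap ρ (L x - c) * exp A ∧ bet L c ρ T x ≤ exp A) ∧
      𝔼 x ∈ bx Q n T, bet L c ρ T x = 1 := by
  have hm := (exp_pos _).trans_le h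
  refine ⟨fun x => ?_, by simp only [bet, ← expect_div]; exact div_self hm.ne'⟩
  have h1 : 0 < lap ρ (L x - c) := exp_pos _
  have h2 : lap ρ (L x - c) ≤ 1 :=
    exp_le_one_iff.2 (div_nonpos_of_nonpos_of_nonneg (neg_nonpos.2 (l1_nonneg _)) h0.le)
  have h3 : bet L c ρ T x ≤ lap ρ (L x - c) * exp A := by
    rw [bet, ← div_inv_eq_mul, ← exp_neg]
    gcongr
  exact ⟨(div_pos h1 hm).le, h3, h3.trans (mul_le_of_le_one_left (exp_pos _).le h2)⟩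

end Dt

end

end Vale.Agent.P057Z.Gr
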