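import Vale.Agent.P057Z.Gr.Pw

/-! Block Gr: from one good tuple to the test. -/

set_option linter.all false

open Finset Real
open scoped BigOperators

namespace Vale.Agent.P057Z.Gr

open Nu Ke

noncomputable section

namespace Dt

variable {Q : ℕ} [Fact Q.Prime] {n : ℕ} {ι : Type} [Fintype ι] [DecidableEq ι] {d : Dt Q n ι}
  {N j : ℕ} (ok : d.Ok)
include ok

theorem Ok.pos (w : Fin N → V Q n) (y : Fin j → V Q n) (x : V Q n) :
    0 < st d.ν' d.e w x ∧ 0 < st (st d.ν' d.e w) d.e y x := by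
  have hm := (exp_pos _).trans_le ok.m
  have he : ∀ u, 0 < d.φ u / d.m := fun u => div_pos (ok.ll.pos u) hm
  have h : 0 < st d.ν' d.e w x := mul_pos (he _) (prod_pos fun _ _ => he _)
  exact ⟨h, mul_pos h (prod_pos fun _ _ => he _)⟩

theorem Ok.dg (hN : (N : ℝ) ≤ d.X) (w : Fin N → V Q n) (s : V Q n) :
    0 ≤ d.gw w s ∧ d.gw w s ≤ exp (d.X * d.X) :=
  prod_exp (fun _ => ok.f _) hN (by linarith [ok.x])

theorem Ok.cardκ (hN : (N : ℝ) ≤ d.X) (hj : (j : ℝ) + 1 ≤ d.X) :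
    (Fintype.card ((Option (Fin N) ⊕ Fin j) × ι) : ℝ) ≤ 3 * d.Y ^ 2 := by
  have h := mul_le_mul (show (N : ℝ) + 1 + j ≤ 3 * d.Y by linarith [ok.x, ok.xy]) ok.card
    (by positivity) (by linarith [ok.x, ok.xy])
  simp only [Fintype.card_prod, Fintype.card_sum, Fintype.card_option, Fintype.card_fin]
  push_cast
  linarith

theorem Ok.pw2 (hC : CHI) (hL : LOW) (w : Fin N → V Q n) (y : Fin j → V Q n)
    (hN : (N : ℝ) ≤ d.X) (hj : (j : ℝ) + 1 ≤ d.X) {p0 p1 p2 x1 y1 : V Q n} {u v : V Q n → ℝ}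
    {θ η : ℝ} (m0 : exp (-d.Y ^ 4) ≤ mas (d.L w y) (d.L w y p0) d.ρ0 d.T2)
    (m1 : exp (-d.Y ^ 4) ≤ mas (d.L w y) (d.L w y p1) d.ρ0 d.T3)
    (m2 : exp (-d.Y ^ 4) ≤ mas (d.L w y) (d.L w y p2) d.ρ4 d.T4)
    (hu : ∀ x, u x ≤ 2 * exp (d.X ^ 3) * st (st d.ν d.e w) d.e y x)
    (hv : ∀ x, v x ≤ 2 * exp (d.X ^ 3) * st d.ν d.e w x) (hθ : 1 / 32 ≤ θ)
    (hη : exp (-(5 * d.X ^ 3)) ≤ η)
    (h : GLo d.T2 d.T3 d.T4 (bet (d.L w y) (d.L w y p0) d.ρ0 d.T2)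
      (bet (d.L w y) (d.L w y p1) d.ρ0 d.T3) (bet (d.L w y) (d.L w y p2) d.ρ4 d.T4) u v
      (fun s => d.χ s * d.gw w s) (fun x => st (st d.ν' d.e w) d.e y (x + (6 * d.b) • (p1 + p2)))
      (fun x => st d.ν' d.e w (x + (6 * d.a) • p0))
      (fun z => l1 (d.L w y z - d.L w y (p1 + p2)) ≤ d.Y ^ 6 * d.ρ0)
      (fun z => l1 (d.L w y z - d.L w y p0) ≤ d.Y ^ 6 * d.ρ0) d.a d.b (6 * d.b) (6 * d.a) d.k θ η
      x1 y1) :
    d.κ ≤ 𝔼 z ∈ bx Q n d.T2, 𝔼 t2 ∈ bx Q n d.T6,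
      ind (d.TS ((1 - 1 / 100) * θ) w y x1 y1 z t2) := by
  obtain ⟨ul, vl, a1, a2, a3, a4, a5⟩ := h
  obtain ⟨⟨_, _, _⟩, ⟨_, _, _, _, _⟩, _, _, _⟩ := pows ok.x ok.xy
  have hx := ok.x
  have hxy := ok.xy
  have h4 := (exp_pos _).trans_le ok.r4
  have h0 := h4.trans_le ok.r0
  have k6 : ∀ k : ℤ, |k| ≤ 3 → |6 * k| ≤ 18 := fun k hk => by rw [abs_mul]; norm_num; omega
  have c4 : 4 * exp (d.X ^ 3) ≤ exp (d.X ^ 4) := cx hx (by norm_num) (by linarith)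
  have key : ∀ {c : Prop} {o a b Λ t : ℝ}, 0 ≤ o → 0 < Λ → t ≤ ind c * a / Λ →
      a ≤ 2 * exp (d.X ^ 3) * (o * b) → (c → b ≤ 2 * Λ) → t ≤ exp (d.X ^ 4) * o := by
    intro c o a b Λ t ho hΛ ht ha hb
    refine ht.trans ?_
    rw [mul_div_assoc]
    refine ind_mul_le (fun hc => (div_le_iff₀ hΛ).2 (ha.trans ?_)) (by positivity)
    have := mul_le_mul_of_nonneg_left (hb hc) (show 0 ≤ 2 * exp (d.X ^ 3) * o by positivity)
    linarith [mul_le_mul_of_nonneg_right c4 (show 0 ≤ o * Λ by positivity)]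
  have bu : ∀ z, 0 ≤ ul z ∧ ul z ≤ exp (d.X ^ 4) * d.om (x1 + (6 * d.b) • z) := fun z =>
    ⟨(a1 z).1, key (ok.dom _).1 (ok.pos w y _).2 (a1 z).2
      ((hu _).trans_eq (by simp only [st, ν_eq]; ring)) fun hz => (ok.lin hC w y (k6 _ ok.b.2) hz).1⟩
  have bv : ∀ z, 0 ≤ vl z ∧ vl z ≤ exp (d.X ^ 4) * d.om (y1 + (6 * d.a) • z) := fun z =>
    ⟨(a2 z).1, key (ok.dom _).1 (ok.pos w y _).1 (a2 z).2
      ((hv _).trans_eq (by simp only [st, ν_eq]; ring)) fun hz => (ok.lin hC w y (k6 _ ok.a.2) hz).2⟩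
  have hS : ∀ {t : ℝ} (x), t ≤ exp (d.X ^ 4) * d.om x → t ≤ exp (2 * d.Y ^ 4) := fun x ht =>
    ht.trans (xx le_rfl (ok.dom x).2 (ok.dom x).1 (by linarith))
  have hb : ∀ {t : ℝ}, t ≤ exp (d.Y ^ 4) → t ≤ exp (2 * d.Y ^ 4) := fun ht =>
    ht.trans (exp_le_exp.2 (by linarith))
  obtain ⟨t1, t2, t3, t4, t5, t6⟩ := ok.t
  obtain ⟨b0, -⟩ := bet_facts h0 m0
  obtain ⟨b1, -⟩ := bet_facts h0 m1
  obtain ⟨b2, -⟩ := bet_facts h4 m2
  have hXX : d.X * d.X = d.X ^ 2 := by ring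
  obtain ⟨l1, l2, l3⟩ := hL Q n d.T2 d.T3 d.T4 d.T6 (2 * d.T2) _ _ _ ul vl
    (fun z => d.χ (d.a • x1 + d.b • y1 + d.k • z)) (fun z => d.gw w (d.a • x1 + d.b • y1 + d.k • z))
    (exp (2 * d.Y ^ 4)) (exp (d.X * d.X)) d.δ θ η (by omega) (by omega) (by omega) (by omega)
    (by omega) (by omega) (by omega) (one_le_exp (by positivity)) (one_le_exp (by positivity))
    (by linarith) ((exp_pos _).trans_le hη) (fun x => ⟨(b0 x).1, hb (b0 x).2.2⟩)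
    (fun x => ⟨(b1 x).1, hb (b1 x).2.2⟩) (fun x => ⟨(b2 x).1, hb (b2 x).2.2⟩)
    (fun x => ⟨(bu x).1, hS _ (bu x).2⟩) (fun x => ⟨(bv x).1, hS _ (bv x).2⟩)
    (fun x => (ok.dφ _).1) (fun x => ok.dg hN w _) (ok.mixχ _)
    ((mul_le_mul_of_nonneg_left ok.δ (by positivity)).trans (le_trans (xx (xx
      (cx hx (by norm_num) le_rfl) (pow_exp (a := 5) (by norm_num) (by positivity)) (by positivity)
      le_rfl) le_rfl (exp_pos _).le (by linarith)) hη)) a3 a4 a5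
  have l0 : exp (-d.X ^ 4) ≤ η / (2 * exp (d.X * d.X)) :=
    xd hη (cx hx (by norm_num) le_rfl) (by positivity) (by linarith)
  have ho : ∀ x, 0 ≤ d.om x ∧ d.om x ≤ exp (d.Y ^ 4) := fun x =>
    ⟨(ok.dom x).1, (ok.dom x).2.trans (exp_le_exp.2 (by linarith))⟩
  have hθ' : exp (-d.X ^ 4) ≤ θ :=
    (xd exp_zero.le (show 32 ≤ exp d.X by linarith [add_one_le_exp d.X]) (by norm_num)
      (by linarith)).trans hθ
  obtain ⟨ξ, hξ⟩ := ok.km _ (d.L w y) _ _ _ θ _ _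
    (fun z => d.χ (d.a • x1 + d.b • y1 + d.k • z)) ul vl
    (fun z => d.gw w (d.a • x1 + d.b • y1 + d.k • z)) (by linarith [ok.cardκ hN hj]) m0 m1 m2
    (fun _ => ho _) (fun _ => ho _)
    (fun _ => ⟨(ok.dφ _).1, (ok.dφ _).2.trans (exp_le_exp.2 (by linarith))⟩)
    (ok.mix x1 _ ok.b.1 ok.b.2) (ok.mix y1 _ ok.a.1 ok.a.2) (ok.mixχ _) bu bv
    (fun _ => ⟨(ok.dg hN w _).1, (ok.dg hN w _).2.trans (exp_le_exp.2 (by linarith))⟩) hθ'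
    (l0.trans l1) (l0.trans l2) l3
  refine hξ.trans (expect_le_expect fun z _ => expect_le_expect fun t2 _ => ind_mono fun k =>
    ⟨ξ, k.trans_eq (expect_congr rfl fun t _ => ?_)⟩)
  have e : ∀ l, d.x0 + d.c • w l + (d.a • x1 + d.b • y1 + d.k • (z + t - t2)) =
      d.p0 x1 y1 z t2 + d.c • w l + d.k • t := fun l => by
    simp only [Dt.p0, smul_add, smul_sub]
    abel
  simp only [hC.blk, Fintype.prod_sum_type, Fintype.prod_option, L, Lk, LinearMap.pi_apply,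
    LinearMap.comp_apply, LinearMap.proj_apply, Sum.elim_inl, Sum.elim_inr, Option.elim, gw, Y1, e]
  ring

theorem Ok.pw (hC : CHI) (hL : LOW) (hB : LOCB) (hP : POP) (w : Fin N → V Q n)
    (y : Fin j → V Q n) (hN : (N : ℝ) ≤ d.X) (hj : (j : ℝ) + 1 ≤ d.X) {Kv th η1 : ℝ}
    (hK : Kv ≤ 2 * exp (d.X ^ 3)) (h1 : 1 ≤ th) (h2 : th ≤ exp d.X) (hη : exp (-(2 * d.X)) ≤ η1)
    (h : GA (bx Q n d.T) d.ν d.ν' d.e d.g Kv (th / 16) η1 w y) :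
    exp (-d.Y ^ 6) * d.κ ≤ 𝔼 x1 ∈ bx Q n d.T, 𝔼 y1 ∈ bx Q n d.T, 𝔼 z ∈ bx Q n d.T2,
      𝔼 t2 ∈ bx Q n d.T6, ind (d.TS ((1 - 1 / 100) * (th / 16 / 2)) w y x1 y1 z t2) := by
  obtain ⟨g1, g2, g3, g4, v, hv, hm⟩ := h
  obtain ⟨⟨_, _, _⟩, ⟨_, _, _, _, _⟩, _, _, _⟩ := pows ok.x ok.xy
  have hx := ok.x
  have hxy := ok.xy
  have h4 := (exp_pos _).trans_le ok.r4
  have h0 := h4.trans_le ok.r0
  have hY : 0 < d.Y := by linarith
  have hρ : 0 < d.ρ := lt_of_lt_of_le (by positivity) ok.r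
  have hm0 := (exp_pos _).trans_le ok.m
  obtain ⟨t1, t2, t3, t4, t5, t6⟩ := ok.t
  have k6 : ∀ k : ℤ, |k| ≤ 3 → |6 * k| ≤ 18 := fun k hk => by rw [abs_mul]; norm_num; omega
  have he : ∀ x y, 0 ≤ d.e x y ∧ d.e x y ≤ exp (d.Y ^ 3) := fun _ _ => ok.dφ _
  have hj' : (j : ℝ) ≤ d.X := by linarith
  have hs : ∀ (ν : V Q n → ℝ) x, 0 ≤ ν x → (0 ≤ st ν d.e w x ∧ st ν d.e w x ≤ ν x * exp (2 * d.Y ^ 4)) ∧
      0 ≤ st (st ν d.e w) d.e y x ∧ st (st ν d.e w) d.e y x ≤ ν x * exp (2 * d.Y ^ 4) := by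
    intro ν x hν
    have a := st_exp w hν he hN (by positivity)
    have b := st_exp y a.1 he hj' (by positivity)
    refine ⟨⟨a.1, a.2.trans (mul_le_mul_of_nonneg_left (exp_le_exp.2 (by linarith)) hν)⟩, b.1,
      b.2.trans ((mul_le_mul_of_nonneg_right a.2 (exp_pos _).le).trans ?_)⟩
    rw [mul_assoc]
    exact mul_le_mul_of_nonneg_left (xx le_rfl le_rfl (exp_pos _).le (by linarith)) hν
  have hs' := fun x => hs d.ν x (ok.dν x).1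
  have hu : ∀ x, 0 ≤ uu d.ν d.e d.g w y x ∧
      uu d.ν d.e d.g w y x ≤ 2 * exp (d.X ^ 3) * st (st d.ν d.e w) d.e y x := fun x => by
    have a := prod_exp (fun i => prod_exp (F := fun l => d.g x (y i) (w l)) (fun l => ok.f _) hN
      (by linarith)) hj' (by positivity)
    rw [show d.X * (d.X * d.X) = d.X ^ 3 by ring] at a
    have b := mul_le_mul_of_nonneg_left a.2 (hs' x).2.1
    have c := mul_nonneg (hs' x).2.1 (exp_pos (d.X ^ 3)).le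
    exact ⟨mul_nonneg (hs' x).2.1 a.1, by rw [uu]; linarith⟩
  have hv' : ∀ x, v x ≤ 2 * exp (d.X ^ 3) * st d.ν d.e w x := fun x =>
    (hv x).2.trans (mul_le_mul_of_nonneg_right hK (hs' x).1.1)
  have k : ∀ {t s a A B : ℝ}, t ≤ 2 * exp (d.X ^ 3) * s → 0 ≤ s ∧ s ≤ a * exp (2 * d.Y ^ 4) →
      a ≤ exp A → A + 3 * d.Y ^ 4 ≤ B → t ≤ exp B := fun ht hs ha hB =>
    ht.trans (xx (cx hx (by norm_num) le_rfl) (hs.2.trans (xx ha le_rfl (exp_pos _).le le_rfl)) hs.1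
      (by linarith))
  have u5 : ∀ x, uu d.ν d.e d.g w y x ≤ exp (d.Y ^ 5) := fun x =>
    k (hu x).2 (hs' x).2 (ok.dν x).2 (by linarith)
  have v5 : ∀ x, v x ≤ exp (d.Y ^ 5) := fun x => k (hv' x) (hs' x).1 (ok.dν x).2 (by linarith)
  have eg : ∀ x t, ∏ l, d.g x t (w l) = d.gw w (d.a • x + d.b • t) := fun x t =>
    prod_congr rfl fun l _ => congrArg d.f (by abel)
  have hXX : d.X * d.X = d.X ^ 2 := by ring
  have hc := hC.cut _ (bx Q n d.T) (uu d.ν d.e d.g w y) v d.e (fun x t => d.χ (d.a • x + d.b • t))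
    (fun x t => d.gw w (d.a • x + d.b • t))
    (fun x => l1 ((12 : ZMod Q)⁻¹ • d.B x x) ≤ d.Y ^ 6 * d.ρ0) (exp (d.Y ^ 5))
    (exp (d.Y ^ 5 - d.Y ^ 6)) (th / 16) η1 (bx_nonempty (by omega)) (by positivity) (exp_pos _).le
    (fun x => ⟨(hu x).1, u5 x⟩) (fun x => ⟨(hv x).1, v5 x⟩)
    (fun x t => ⟨(he x t).1, (he x t).2.trans (exp_le_exp.2 (by linarith))⟩)
    (fun x t => ⟨(ok.dg hN w _).1, (ok.dg hN w _).2.trans (exp_le_exp.2 (by linarith))⟩)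
    (fun x hx => ⟨k (hu x).2 (hs' x).2 (ok.off hx) (by linarith),
      k (hv' x) (hs' x).1 (ok.off hx) (by linarith)⟩)
    (fun x t hx ht => (div_le_div_of_nonneg_right (hC.pt Q n ι d.B d.φ d.ρ _ d.a d.b x t ok.sym ok.q
      ok.a.1 ok.a.2 ok.b.1 ok.b.2 hρ ok.ll ok.r hx ht) hm0.le).trans_eq (mul_div_assoc _ _ _))
    (by simpa only [eg] using hm)
  have s3 : exp (d.Y ^ 5) ^ 3 ≤ exp (3 * d.Y ^ 5) := pow_exp (by norm_num) (by positivity)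
  have hη2 : exp (-(3 * d.X)) ≤ η1 / 2 - exp (d.Y ^ 5 - d.Y ^ 6) * exp (d.Y ^ 5) ^ 3 := by
    have a : exp (d.Y ^ 5 - d.Y ^ 6) * exp (d.Y ^ 5) ^ 3 ≤ exp (-(3 * d.X)) :=
      xx le_rfl s3 (by positivity) (by linarith)
    have b : 4 * exp (-(3 * d.X)) ≤ exp (-(2 * d.X)) := cx hx (by norm_num) (by linarith)
    linarith
  have hκ := ok.cardκ hN hj
  obtain ⟨p0, q0, m0⟩ := ok.mass hP (d.L w y) hκ ok.r0 ok.r1 (show 1 ≤ d.T2 by omega)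
  obtain ⟨p1, q1, m1⟩ := ok.mass hP (d.L w y) hκ ok.r0 ok.r1 (show 1 ≤ d.T3 by omega)
  obtain ⟨p2, q2, m2⟩ := ok.mass hP (d.L w y) hκ le_rfl (ok.r0.trans ok.r1) (show 1 ≤ d.T4 by omega)
  obtain ⟨b0, c0⟩ := bet_facts h0 m0
  obtain ⟨b1, c1⟩ := bet_facts h0 m1
  obtain ⟨b2, c2⟩ := bet_facts h4 m2
  have hi : ∀ (c : Prop) {t : ℝ}, 0 ≤ t → 0 ≤ ind c * t ∧ ind c * t ≤ t := fun c t ht =>
    ⟨mul_nonneg (ind_01 c).1 ht, mul_le_of_le_one_left ht (ind_01 c).2⟩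
  have hA : 5 * exp (d.X ^ 3) ≤ exp (2 * d.X ^ 3) := cx hx (by norm_num) (by linarith)
  have hA1 : 1 ≤ exp (d.X ^ 3) := one_le_exp (by positivity)
  have mean : ∀ {F G : V Q n → ℝ}, (∀ x, F x ≤ 2 * exp (d.X ^ 3) * G x) →
      𝔼 x ∈ bx Q n d.T, G x ≤ 2 → 𝔼 x ∈ bx Q n d.T, F x ≤ exp (2 * d.X ^ 3) := fun hF hG => by
    refine (expect_le_expect fun x _ => hF x).trans ?_
    rw [← mul_expect]
    linarith [mul_le_mul_of_nonneg_left hG (show 0 ≤ 2 * exp (d.X ^ 3) by positivity)]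
  have shift : ∀ (G : V Q n → ℝ) (c : ℤ) {p : V Q n}, |c| ≤ 3 → Near p (2 * d.T2) →
      (∀ x, 0 ≤ G x ∧ G x ≤ d.ν' x * exp (2 * d.Y ^ 4)) → 𝔼 x ∈ bx Q n d.T, G x ≤ 4 →
      𝔼 x ∈ bx Q n d.T, G (x + (6 * c) • p) ≤ exp (2 * d.X ^ 3) := by
    intro G c p hc hp hG h4
    have a := near_smul hp (j := 18) (k6 c hc)
    rw [Int.cast_smul_eq_zsmul] at a
    have b := (abs_le.1 (fol_real (show 1 ≤ d.T by omega) t6 a G (M := exp (3 * d.Y ^ 4)) fun x =>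
      (abs_of_nonneg (hG x).1).trans_le ((hG x).2.trans
        (xx (ok.dφ _).2 le_rfl (exp_pos _).le (by linarith))))).2
    have c : 72 * exp (-d.Y ^ 6) * exp (3 * d.Y ^ 4) ≤ exp 0 :=
      xx (cx hx (by norm_num) le_rfl) le_rfl (exp_pos _).le (by linarith)
    have e := mul_le_mul_of_nonneg_right ok.fol (exp_pos (3 * d.Y ^ 4)).le
    rw [show 2 * (n : ℝ) * ((18 * (2 * d.T2) : ℕ) : ℝ) / d.T = 72 * (n * d.T2 / d.T) by
      push_cast; ring] at b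
    rw [exp_zero] at c
    linarith
  have hs'' := fun x => hs d.ν' x (ok.dφ _).1
  have hR : -(d.Y ^ 6 * d.ρ0) / d.ρ0 = -d.Y ^ 6 := by field_simp
  have hl := hB Q n d.T d.T2 d.T3 d.T4 _ _ _
    (fun x => ind (l1 ((12 : ZMod Q)⁻¹ • d.B x x) ≤ d.Y ^ 6 * d.ρ0) * uu d.ν d.e d.g w y x)
    (fun x => ind (l1 ((12 : ZMod Q)⁻¹ • d.B x x) ≤ d.Y ^ 6 * d.ρ0) * v x)
    (fun s => d.χ s * d.gw w s) (fun x => st (st d.ν' d.e w) d.e y (x + (6 * d.b) • (p1 + p2)))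
    (fun x => st d.ν' d.e w (x + (6 * d.a) • p0))
    (fun z => l1 (d.L w y z - d.L w y (p1 + p2)) ≤ d.Y ^ 6 * d.ρ0)
    (fun z => l1 (d.L w y z - d.L w y p0) ≤ d.Y ^ 6 * d.ρ0) d.a d.b (6 * d.b) (6 * d.a) d.k
    (exp (d.Y ^ 5)) (exp (2 * d.X ^ 3)) (exp (d.Y ^ 5 - d.Y ^ 6)) (th / 16 / 2) (exp (-(3 * d.X)))
    (by omega) t3 t4 t5 t6 (by rw [Dt.k]; ring) (by rw [Dt.k]; ring) (k6 _ ok.b.2) (k6 _ ok.a.2)
    (one_le_exp (by positivity)) (one_le_exp (by positivity)) (exp_pos _).le (exp_pos _)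
    (fun x => (b0 x).1) (fun x => (b1 x).1) (fun x => (b2 x).1) c0 c1 c2
    (fun a1 a2 hz => by
      have a := hC.tail Q _ d.ρ0 d.ρ4 (d.Y ^ 6 * d.ρ0) (d.L w y a1 - d.L w y p1)
        (d.L w y a2 - d.L w y p2) h4 ok.r0 ((not_le.1 hz).le.trans_eq (congrArg l1 (by
          simp only [map_add]; abel)))
      rw [hR] at a
      refine (mul_le_mul (b1 a1).2.1 (b2 a2).2.1 (b2 a2).1 ((b1 a1).1.trans (b1 a1).2.1)).trans ?_
      rw [mul_mul_mul_comm]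
      exact xx a (xx le_rfl le_rfl (exp_pos _).le le_rfl) (by positivity) (by linarith))
    (fun t hz => (b0 t).2.1.trans (xx (A := -d.Y ^ 6) (exp_le_exp.2 ((div_le_iff₀ h0).2
      (by linarith [not_le.1 hz]))) le_rfl (exp_pos _).le (by linarith)))
    (fun x => ⟨(hi _ (hu x).1).1, (hi _ (hu x).1).2.trans (u5 x)⟩)
    (fun x => ⟨(hi _ (hv x).1).1, (hi _ (hv x).1).2.trans (v5 x)⟩)
    (fun x => by
      have a : d.χ x * d.gw w x ≤ exp (d.Y ^ 5) :=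
        xx (ok.dφ _).2 (ok.dg hN w x).2 (ok.dg hN w x).1 (by linarith)
      have b : 0 ≤ d.χ x * d.gw w x := mul_nonneg (ok.dφ _).1 (ok.dg hN w x).1
      have c : exp d.X ≤ exp (d.Y ^ 5) := exp_le_exp.2 (by linarith)
      exact abs_le.2 ⟨by linarith, by linarith⟩)
    (fun x => (ok.pos w y _).2) (fun x => (ok.pos w y _).1)
    (shift _ _ ok.b.2 (near_mono (near_add (near_of_mem_bx q1) (near_of_mem_bx q2)) (by omega))
      (fun x => (hs'' x).2) g4)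
    (shift _ _ ok.a.2 (near_mono (near_of_mem_bx q0) (by omega)) (fun x => (hs'' x).1) g3)
    (mean (fun x => (hi _ (hu x).1).2.trans (hu x).2) g2)
    (mean (fun x => (hi _ (hv x).1).2.trans (hv' x)) g1)
    (xx (A := d.X + (d.X + (d.Y ^ 5 - d.Y ^ 6))) (by
      have a := ok.fol.trans (exp_le_exp.2 (show -d.Y ^ 6 ≤ d.Y ^ 5 - d.Y ^ 6 by linarith))
      have b : 1000 * exp (d.Y ^ 5 - d.Y ^ 6) ≤ _ := cx hx le_rfl le_rfl
      have c : 2 * exp (d.X + (d.Y ^ 5 - d.Y ^ 6)) ≤ _ := cx hx (by norm_num) le_rfl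
      have e := exp_pos (d.Y ^ 5 - d.Y ^ 6)
      rw [mul_assoc, mul_div_assoc]
      linarith) s3 (by positivity) (by linarith))
    (exp_le_one_iff.2 (by linarith)) (hη2.trans hc)
  refine le_trans (mul_le_mul_of_nonneg_right (xd le_rfl (xx (A := d.X) (by
    linarith [add_one_le_exp d.X]) s3 (by positivity) le_rfl) (by positivity) (by linarith)) ok.κ)
    (chain hl ok.κ (fun x1 y1 hG => ok.pw2 hC hL w y hN hj m0 m1 m2
      (fun x => (hi _ (hu x).1).2.trans (hu x).2) (fun x => (hi _ (hv x).1).2.trans (hv' x))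
      (by linarith) (xd le_rfl (xx (A := d.X) (by linarith [add_one_le_exp d.X])
        (pow_exp (a := 2) (by norm_num) (by positivity)) (by positivity) le_rfl) (by positivity)
        (by linarith)) hG)
      fun _ _ => expect_nonneg fun _ _ => expect_nonneg fun _ _ => (ind_01 _).1)

end Dt

end

end Vale.Agent.P057Z.Gr
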