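import Vale.Agent.P057Z.Gr.Sk

/-! Block Gr: selection of good tuples. -/

set_option linter.all false

open Finset
open scoped BigOperators

namespace Vale.Agent.P057Z.Gr

noncomputable section

namespace SelA

variable {α : Type}

theorem ind_pos {p : Prop} (h : p) : ind p = 1 := if_pos h

theorem ind_neg {p : Prop} (h : ¬ p) : ind p = 0 := if_neg h

theorem ind_nonneg (p : Prop) : 0 ≤ ind p := by
  by_cases h : p
  · rw [ind_pos h]; exact zero_le_one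
  · rw [ind_neg h]

theorem ex_le {s : Finset α} (hs : s.Nonempty) {f : α → ℝ} {c : ℝ} (h : ∀ x, f x ≤ c) :
    𝔼 x ∈ s, f x ≤ c := (expect_le_expect fun x _ => h x).trans_eq (expect_const hs c)

theorem pw_ne {s : Finset α} (hs : s.Nonempty) (k : ℕ) : (pw s k).Nonempty :=
  Fintype.piFinset_nonempty.2 fun _ => hs

theorem prod_bd {k : ℕ} {f : Fin k → ℝ} {c : ℝ} (h : ∀ i, 0 ≤ f i ∧ f i ≤ c) :
    0 ≤ ∏ i, f i ∧ ∏ i, f i ≤ c ^ k :=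
  ⟨prod_nonneg fun i _ => (h i).1, (prod_le_prod (fun i _ => (h i).1) fun i _ => (h i).2).trans_eq
    (by rw [prod_const, card_univ, Fintype.card_fin])⟩

theorem mul_bd {a b A B : ℝ} (ha : 0 ≤ a ∧ a ≤ A) (hb : 0 ≤ b ∧ b ≤ B) :
    0 ≤ a * b ∧ a * b ≤ A * B :=
  ⟨mul_nonneg ha.1 hb.1, mul_le_mul ha.2 hb.2 hb.1 (ha.1.trans ha.2)⟩

theorem st_bd {ν : α → ℝ} {e : α → α → ℝ} {A S : ℝ} (hν : ∀ x, 0 ≤ ν x ∧ ν x ≤ A)
    (he : ∀ x y, 0 ≤ e x y ∧ e x y ≤ S) {k : ℕ} (z : Fin k → α) (x : α) :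
    0 ≤ st ν e z x ∧ st ν e z x ≤ A * S ^ k := mul_bd (hν x) (prod_bd fun i => he _ _)

theorem alt (s : Finset α) {μ u D : α → ℝ} {k : α → α → ℝ} {X K θ c : ℝ} (hθ : 0 ≤ θ) (hc : 0 ≤ c)
    (hK : 0 ≤ K) (hμ : ∀ x, 0 ≤ μ x ∧ μ x ≤ X) (hu : ∀ x, 0 ≤ u x)
    (hΨ : ∀ t, 0 ≤ 𝔼 x ∈ s, u x * k x t ∧ 𝔼 x ∈ s, u x * k x t ≤ X)
    (hD : ∀ t, 𝔼 x ∈ s, u x * k x t ≤ K * D t) (h2 : 𝔼 x ∈ s, μ x ≤ 2) :
    (𝔼 t ∈ s, μ t * (𝔼 x ∈ s, u x * k x t) ^ 2) - (2 * θ) ^ 2 * (𝔼 x ∈ s, u x) ^ 2 ≤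
      c + X ^ 3 * 𝔼 t ∈ s, ind (2 < D t) ∨ ∃ v : α → ℝ, (∀ x, 0 ≤ v x ∧ v x ≤ 2 * K * μ x) ∧
      c / 4 ≤ 𝔼 x ∈ s, 𝔼 t ∈ s, u x * v t * (k x t - θ) := by
  obtain ⟨Ψ, hΨ'⟩ : ∃ Ψ : α → ℝ, ∀ t, 𝔼 x ∈ s, u x * k x t = Ψ t := ⟨_, fun _ => rfl⟩
  simp only [hΨ'] at hΨ hD ⊢
  obtain ⟨v, hv⟩ : ∃ v : α → ℝ, ∀ t, v t = ind (D t ≤ 2) * μ t * Ψ t := ⟨_, fun _ => rfl⟩
  have h1 : 𝔼 t ∈ s, μ t * Ψ t ^ 2 ≤ (𝔼 t ∈ s, v t * Ψ t) + X ^ 3 * 𝔼 t ∈ s, ind (2 < D t) := by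
    rw [mul_expect, ← expect_add_distrib]
    refine expect_le_expect fun t _ => ?_
    rw [hv]
    rcases le_or_gt (D t) 2 with h | h
    · rw [ind_pos h, ind_neg h.not_gt]
      exact le_of_eq (by ring)
    · rw [ind_pos h, ind_neg h.not_ge]
      have := (mul_bd (hμ t) (mul_bd (hΨ t) (hΨ t))).2
      linarith
  have hU : 0 ≤ 𝔼 x ∈ s, u x := expect_nonneg fun x _ => hu x
  have h3 : 𝔼 x ∈ s, 𝔼 t ∈ s, u x * v t * (k x t - θ) =
      (𝔼 t ∈ s, v t * Ψ t) - θ * (𝔼 x ∈ s, u x) * 𝔼 t ∈ s, v t := by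
    rw [expect_comm, mul_expect, ← expect_sub_distrib]
    refine expect_congr rfl fun t _ => ?_
    rw [← hΨ', mul_expect, mul_expect, expect_mul, ← expect_sub_distrib]
    exact expect_congr rfl fun x _ => by ring
  generalize 𝔼 x ∈ s, u x = U at hU h3 ⊢
  refine or_iff_not_imp_left.2 fun h => ⟨v, fun t => ?_, ?_⟩
  · rw [hv]
    refine ⟨mul_nonneg (mul_nonneg (ind_nonneg _) (hμ t).1) (hΨ t).1, ?_⟩
    by_cases h : D t ≤ 2
    · rw [ind_pos h]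
      nlinarith [mul_le_mul_of_nonneg_left h hK, hD t, (hμ t).1]
    · rw [ind_neg h, zero_mul, zero_mul]
      exact mul_nonneg (by linarith) (hμ t).1
  · have h4 : 2 * θ * U * 𝔼 t ∈ s, v t ≤ (2 * θ * U) ^ 2 / 4 * (𝔼 t ∈ s, μ t) +
        𝔼 t ∈ s, v t * Ψ t := by
      rw [mul_expect, mul_expect, ← expect_add_distrib]
      refine expect_le_expect fun t _ => ?_
      rw [hv]
      by_cases h : D t ≤ 2
      · rw [ind_pos h]
        nlinarith [mul_nonneg (hμ t).1 (sq_nonneg (θ * U - Ψ t))]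
      · rw [ind_neg h]
        nlinarith [mul_nonneg (hμ t).1 (sq_nonneg (θ * U))]
    rw [h3]
    nlinarith [mul_le_mul_of_nonneg_left h2 (sq_nonneg (θ * U))]

/-- the pointwise bound -/
theorem point {s : Finset α} (hs : s.Nonempty) {ν ν' : α → ℝ} {e : α → α → ℝ} {g : α → α → α → ℝ}
    {S G th c π : ℝ} {N j p : ℕ} (w : Fin N → α) (y : Fin j → α) (hj : j < p) (hS : 1 ≤ S)
    (hG : 1 ≤ G) (hth : 0 ≤ th) (hc : 0 ≤ c) (hν : ∀ x, 0 ≤ ν x ∧ ν x ≤ S)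
    (he : ∀ x y, 0 ≤ e x y ∧ e x y ≤ S) (hg : ∀ x y w, 0 ≤ g x y w ∧ g x y w ≤ G)
    (h1 : 𝔼 x ∈ s, ν x ≤ 3 / 2) (h2 : 𝔼 x ∈ s, ν' x ≤ 2)
    (hπ : 0 ≤ π ∧ π ≤ (S * G) ^ ((N + 1) * (p + 1))) :
    π * ((𝔼 t ∈ s, st ν e w t * (𝔼 x ∈ s, uu ν e g w y x * (e x t * ∏ l, g x t (w l))) ^ 2) -
      (th / 8) ^ 2 * (𝔼 x ∈ s, uu ν e g w y x) ^ 2) ≤ c * (π * ind (𝔼 x ∈ s, st ν e w x ≤ 2)) +
      ((S * G) ^ ((N + 1) * (p + 1))) ^ 4 * (ind (GA s ν ν' e g (2 * G ^ (N * p)) (th / 16) (c / 4)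
        w y) + 2 * (|(𝔼 x ∈ s, st ν e w x) - 𝔼 x ∈ s, ν x| +
        |(𝔼 x ∈ s, st (st ν e w) e y x) - 𝔼 x ∈ s, st ν e w x| +
        𝔼 t ∈ s, |(𝔼 x ∈ s, st (st ν e w) e y x * e x t) - 𝔼 x ∈ s, st (st ν e w) e y x|) +
        (|(𝔼 x ∈ s, st ν' e w x) - 𝔼 x ∈ s, ν' x| +
        |(𝔼 x ∈ s, st (st ν' e w) e y x) - 𝔼 x ∈ s, st ν' e w x|)) := by
  have hX : ∀ a b : ℕ, a ≤ (N + 1) * (p + 1) → b ≤ (N + 1) * (p + 1) →
      S ^ a * G ^ b ≤ (S * G) ^ ((N + 1) * (p + 1)) := fun a b ha hb => by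
    rw [mul_pow]
    exact mul_le_mul (pow_le_pow_right₀ hS ha) (pow_le_pow_right₀ hG hb) (by positivity)
      (by positivity)
  generalize (S * G) ^ ((N + 1) * (p + 1)) = X at hX hπ
  have hμ : ∀ x, 0 ≤ st ν e w x ∧ st ν e w x ≤ X := fun x => ⟨(st_bd hν he w x).1,
    (st_bd hν he w x).2.trans (by simpa [pow_succ'] using hX (N + 1) 0 (by nlinarith) (by omega))⟩
  have hμ2 := st_bd (st_bd hν he w) he y
  have hk : ∀ x t, 0 ≤ uu ν e g w y x * (e x t * ∏ l, g x t (w l)) ∧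
      uu ν e g w y x * (e x t * ∏ l, g x t (w l)) ≤
        G ^ (N * p) * (st (st ν e w) e y x * e x t) := fun x t => by
    have a1 := mul_bd (prod_bd (c := G ^ N) fun i : Fin j => prod_bd fun l => hg x (y i) (w l))
      (prod_bd fun l => hg x t (w l))
    have a2 : (G ^ N) ^ j * G ^ N ≤ G ^ (N * p) := by
      rw [← pow_succ, ← pow_mul]
      exact pow_le_pow_right₀ hG (Nat.mul_le_mul_left _ hj)
    have a3 := mul_nonneg (hμ2 x).1 (he x t).1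
    rw [uu, show ∀ a b c d : ℝ, a * b * (c * d) = b * d * (a * c) from fun _ _ _ _ => by ring]
    exact ⟨mul_nonneg a1.1 a3, mul_le_mul_of_nonneg_right (a1.2.trans a2) a3⟩
  have hΨ : ∀ t, 0 ≤ 𝔼 x ∈ s, uu ν e g w y x * (e x t * ∏ l, g x t (w l)) ∧
      𝔼 x ∈ s, uu ν e g w y x * (e x t * ∏ l, g x t (w l)) ≤ X := fun t =>
    ⟨expect_nonneg fun x _ => (hk x t).1, ex_le hs fun x => (hk x t).2.trans
      ((mul_le_mul_of_nonneg_left (mul_bd (hμ2 x) (he x t)).2 (by positivity)).trans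
        (le_trans (le_of_eq (by ring)) (hX (N + j + 2) (N * p) (by nlinarith) (by nlinarith))))⟩
  have ha := alt s (D := fun t => 𝔼 x ∈ s, st (st ν e w) e y x * e x t) (K := G ^ (N * p))
    (u := uu ν e g w y) (θ := th / 16) (k := fun x t => e x t * ∏ l, g x t (w l)) (by linarith) hc (by positivity) hμ
    (fun x => mul_nonneg (hμ2 x).1 (prod_nonneg fun i _ => prod_nonneg fun l _ => (hg _ _ _).1))
    hΨ fun t => by rw [mul_expect]; exact expect_le_expect fun x _ => (hk x t).2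
  rw [show 2 * (th / 16) = th / 8 by ring] at ha
  have hF : (𝔼 t ∈ s, st ν e w t * (𝔼 x ∈ s, uu ν e g w y x * (e x t * ∏ l, g x t (w l))) ^ 2) -
      (th / 8) ^ 2 * (𝔼 x ∈ s, uu ν e g w y x) ^ 2 ≤ X ^ 3 := by
    refine (sub_le_self _ (by positivity)).trans (ex_le hs fun t => ?_)
    have := (mul_bd (hμ t) (mul_bd (hΨ t) (hΨ t))).2
    linarith
  have hI : 𝔼 t ∈ s, ind (2 < 𝔼 x ∈ s, st (st ν e w) e y x * e x t) ≤
      2 * (|(𝔼 x ∈ s, st ν e w x) - 𝔼 x ∈ s, ν x| +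
        |(𝔼 x ∈ s, st (st ν e w) e y x) - 𝔼 x ∈ s, st ν e w x| +
        𝔼 t ∈ s, |(𝔼 x ∈ s, st (st ν e w) e y x * e x t) - 𝔼 x ∈ s, st (st ν e w) e y x|) := by
    rw [← expect_const hs (|_| + |_| : ℝ), ← expect_add_distrib, mul_expect]
    refine expect_le_expect fun t _ => ?_
    by_cases h : 2 < 𝔼 x ∈ s, st (st ν e w) e y x * e x t
    · rw [ind_pos h]
      linarith [le_abs_self ((𝔼 x ∈ s, st ν e w x) - 𝔼 x ∈ s, ν x),
        le_abs_self ((𝔼 x ∈ s, st (st ν e w) e y x) - 𝔼 x ∈ s, st ν e w x), le_abs_self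
          ((𝔼 x ∈ s, st (st ν e w) e y x * e x t) - 𝔼 x ∈ s, st (st ν e w) e y x)]
    · rw [ind_neg h]
      positivity
  have hd : 0 ≤ 𝔼 t ∈ s, |(𝔼 x ∈ s, st (st ν e w) e y x * e x t) -
      𝔼 x ∈ s, st (st ν e w) e y x| := expect_nonneg fun _ _ => abs_nonneg _
  have hga := ind_nonneg (GA s ν ν' e g (2 * G ^ (N * p)) (th / 16) (c / 4) w y)
  have hga' : 𝔼 x ∈ s, st ν e w x ≤ 2 → 𝔼 x ∈ s, st (st ν e w) e y x ≤ 2 →
      𝔼 x ∈ s, st ν' e w x ≤ 4 → 𝔼 x ∈ s, st (st ν' e w) e y x ≤ 4 → _ →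
      ind (GA s ν ν' e g (2 * G ^ (N * p)) (th / 16) (c / 4) w y) = 1 :=
    fun a b c d e => ind_pos ⟨a, b, c, d, e⟩
  have hi := ind_nonneg (𝔼 x ∈ s, st ν e w x ≤ 2)
  have hi' := @ind_pos (𝔼 x ∈ s, st ν e w x ≤ 2)
  generalize ind (GA s ν ν' e g (2 * G ^ (N * p)) (th / 16) (c / 4) w y) = a0 at hga hga' ⊢
  generalize ind (𝔼 x ∈ s, st ν e w x ≤ 2) = i0 at hi hi' ⊢
  generalize (𝔼 t ∈ s, st ν e w t * (𝔼 x ∈ s, uu ν e g w y x * (e x t * ∏ l, g x t (w l))) ^ 2) -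
      (th / 8) ^ 2 * (𝔼 x ∈ s, uu ν e g w y x) ^ 2 = F at ha hF ⊢
  generalize 𝔼 t ∈ s, |(𝔼 x ∈ s, st (st ν e w) e y x * e x t) -
      𝔼 x ∈ s, st (st ν e w) e y x| = d3 at hd hI ⊢
  generalize 𝔼 t ∈ s, ind (2 < 𝔼 x ∈ s, st (st ν e w) e y x * e x t) = I at ha hI
  generalize 𝔼 x ∈ s, st (st ν e w) e y x = a2 at *
  generalize 𝔼 x ∈ s, st (st ν' e w) e y x = b2 at *
  generalize 𝔼 x ∈ s, st ν e w x = a1 at *
  generalize 𝔼 x ∈ s, st ν' e w x = b1 at *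
  generalize 𝔼 x ∈ s, ν x = a at *
  generalize 𝔼 x ∈ s, ν' x = b at *
  have hX0 : 0 ≤ X := hπ.1.trans hπ.2
  have k0 : π * F ≤ X ^ 4 := (mul_le_mul_of_nonneg_left hF hπ.1).trans
    ((mul_le_mul_of_nonneg_right hπ.2 (by positivity)).trans_eq (by ring))
  have k1 := mul_nonneg hc (mul_nonneg hπ.1 hi)
  have e1 := le_abs_self (a1 - a)
  have e2 := le_abs_self (a2 - a1)
  have e3 := le_abs_self (b1 - b)
  have e4 := le_abs_self (b2 - b1)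
  have e5 := abs_nonneg (a1 - a)
  have e6 := abs_nonneg (a2 - a1)
  have e7 := abs_nonneg (b1 - b)
  have e8 := abs_nonneg (b2 - b1)
  by_cases k2 : 1 ≤ a0 + 2 * (|a1 - a| + |a2 - a1| + d3) + (|b1 - b| + |b2 - b1|)
  · linarith [mul_le_mul_of_nonneg_left k2 (by positivity : 0 ≤ X ^ 4)]
  have k3 : a1 ≤ 2 := by linarith
  rcases ha k3 with h | h
  · rw [hi' k3]
    have k4 : π * (X ^ 3 * I) ≤ X ^ 4 * (2 * (|a1 - a| + |a2 - a1| + d3)) :=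
      (mul_le_mul_of_nonneg_left (mul_le_mul_of_nonneg_left hI (by positivity)) hπ.1).trans
        ((mul_le_mul_of_nonneg_right hπ.2 (by positivity)).trans_eq (by ring))
    linarith [mul_le_mul_of_nonneg_left h hπ.1, mul_nonneg (by positivity : 0 ≤ X ^ 4) hga,
      mul_nonneg (by positivity : 0 ≤ X ^ 4) (add_nonneg e7 e8)]
  · have := hga' k3 (by linarith) (by linarith) (by linarith) h
    exact absurd (by linarith) k2

/-- the mean deviations -/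
theorem devs (hs' : STAR) {s : Finset α} (hs : s.Nonempty) {ν : α → ℝ} {e : α → α → ℝ}
    {S δ X : ℝ} (N j : ℕ) (hS : 1 ≤ S) (hν : ∀ x, 0 ≤ ν x ∧ ν x ≤ S)
    (he : ∀ x y, 0 ≤ e x y ∧ e x y ≤ S) (hc : Cut s e δ) (hX : S ^ (N + 1 + j) ≤ X) :
    𝔼 w ∈ pw s N, 𝔼 y ∈ pw s j, (|(𝔼 x ∈ s, st ν e w x) - 𝔼 x ∈ s, ν x| +
      |(𝔼 x ∈ s, st (st ν e w) e y x) - 𝔼 x ∈ s, st ν e w x| +
      𝔼 t ∈ s, |(𝔼 x ∈ s, st (st ν e w) e y x * e x t) - 𝔼 x ∈ s, st (st ν e w) e y x|) ≤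
      (N + j + 1) * X * δ := by
  have hδ : 0 ≤ δ := (abs_nonneg _).trans (hc (fun _ => 0) (fun _ => 0) (by simp) (by simp))
  have ab : ∀ {a A : ℝ}, 0 ≤ a ∧ a ≤ A → |a| ≤ A := fun h => (abs_of_nonneg h.1).trans_le h.2
  have h1 := hs'.all α s e ν δ S S N hs hc (fun x => ab (hν x)) (by positivity) hS
    fun x y => ab (he x y)
  have h2 := ex_le (pw_ne hs N) fun w : Fin N → α => hs'.all α s e (st ν e w) δ _ S j hs hc
    (fun x => ab (st_bd hν he w x)) (by positivity) hS fun x y => ab (he x y)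
  have h3 := ex_le (pw_ne hs N) fun w : Fin N → α => ex_le (pw_ne hs j) fun y : Fin j → α =>
    hs'.one α s e (st (st ν e w) e y) δ _ hc (fun x => ab (st_bd (st_bd hν he w) he y x))
    (by positivity)
  simp only [expect_add_distrib, expect_const (pw_ne hs j)]
  have h4 : S * S ^ N * S ^ j ≤ X := le_trans (le_of_eq (by ring)) hX
  have h5 : S * S ^ N ≤ X :=
    (le_mul_of_one_le_right (by positivity) (one_le_pow₀ hS)).trans h4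
  have h6 := mul_le_mul_of_nonneg_right h4 hδ
  have h7 := mul_le_mul_of_nonneg_right h5 hδ
  nlinarith [mul_le_mul_of_nonneg_left h6 (Nat.cast_nonneg (α := ℝ) j),
    mul_le_mul_of_nonneg_left h7 (Nat.cast_nonneg (α := ℝ) N)]

theorem zero (hs' : STAR) {s : Finset α} (hs : s.Nonempty) {ν : α → ℝ} {e : α → α → ℝ}
    (g : α → α → α → ℝ) {S δ X : ℝ} (N : ℕ) (hS : 1 ≤ S) (hν : ∀ x, 0 ≤ ν x ∧ ν x ≤ S)
    (he : ∀ x y, 0 ≤ e x y ∧ e x y ≤ S) (hc : Cut s e δ) (hX : S ^ (N + 1) ≤ X)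
    (h1 : 𝔼 x ∈ s, ν x ≤ 3 / 2) (h2 : (𝔼 x ∈ s, ν x) ^ N ≤ 2) :
    𝔼 w ∈ pw s N, 𝔼 y ∈ pw s 0, (∏ l, ν (w l)) * (∏ i, st ν e w (y i)) *
      (𝔼 x ∈ s, uu ν e g w y x) ^ 2 ≤ 8 + 2 * X ^ 3 * (N * X * δ) := by
  have hδ : 0 ≤ δ := (abs_nonneg _).trans (hc (fun _ => 0) (fun _ => 0) (by simp) (by simp))
  have ab : ∀ {a A : ℝ}, 0 ≤ a ∧ a ≤ A → |a| ≤ A := fun h => (abs_of_nonneg h.1).trans_le h.2
  have h3 := hs'.all α s e ν δ S S N hs hc (fun x => ab (hν x)) (by positivity) hS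
    fun x y => ab (he x y)
  have h4 : S * S ^ N ≤ X := le_trans (le_of_eq (by ring)) hX
  have hX0 : 0 ≤ X := le_trans (by positivity) hX
  have h5 : ∀ w : Fin N → α, 𝔼 y ∈ pw s 0, (∏ l, ν (w l)) * (∏ i, st ν e w (y i)) *
      (𝔼 x ∈ s, uu ν e g w y x) ^ 2 ≤ 4 * (∏ l, ν (w l)) +
        2 * X ^ 3 * |(𝔼 x ∈ s, st ν e w x) - 𝔼 x ∈ s, ν x| := fun w => by
    refine ex_le (pw_ne hs 0) fun y => ?_
    have a0 : ∀ x, uu ν e g w y x = st ν e w x := fun x => by simp [uu, st]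
    simp only [a0, Fin.prod_univ_zero, mul_one]
    have a1 := prod_bd fun l => hν (w l)
    have a2 : 0 ≤ 𝔼 x ∈ s, st ν e w x ∧ 𝔼 x ∈ s, st ν e w x ≤ X :=
      ⟨expect_nonneg fun x _ => (st_bd hν he w x).1,
        ex_le hs fun x => (st_bd hν he w x).2.trans h4⟩
    have a3 : ∏ l, ν (w l) ≤ X :=
      a1.2.trans ((le_mul_of_one_le_left (by positivity) hS).trans h4)
    have a4 := (mul_bd ⟨a1.1, a3⟩ (mul_bd a2 a2)).2
    have a5 := le_abs_self ((𝔼 x ∈ s, st ν e w x) - 𝔼 x ∈ s, ν x)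
    have a6 := abs_nonneg ((𝔼 x ∈ s, st ν e w x) - 𝔼 x ∈ s, ν x)
    have a7 : 0 ≤ X ^ 3 := by positivity
    rcases le_or_gt (𝔼 x ∈ s, st ν e w x) 2 with h | h
    · nlinarith [(mul_bd ⟨a1.1, le_rfl⟩ (mul_bd ⟨a2.1, h⟩ ⟨a2.1, h⟩)).2, mul_nonneg a7 a6]
    · nlinarith [mul_le_mul_of_nonneg_left (by linarith : 1 / 2 ≤
        |(𝔼 x ∈ s, st ν e w x) - 𝔼 x ∈ s, ν x|) a7]
  refine (expect_le_expect fun w _ => h5 w).trans ?_
  rw [expect_add_distrib, ← mul_expect, ← mul_expect, hs'.prod]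
  have h6 := h3.trans (mul_le_mul_of_nonneg_right
    (mul_le_mul_of_nonneg_left h4 (Nat.cast_nonneg N)) hδ)
  linarith [mul_le_mul_of_nonneg_left h6 (by positivity : 0 ≤ 2 * X ^ 3)]

theorem first (hs' : STAR) {s : Finset α} {ν : α → ℝ} {e : α → α → ℝ} {S : ℝ} (N j : ℕ)
    (hν : ∀ x, 0 ≤ ν x ∧ ν x ≤ S) (he : ∀ x y, 0 ≤ e x y ∧ e x y ≤ S)
    (h2 : (𝔼 x ∈ s, ν x) ^ N ≤ 2) : 𝔼 w ∈ pw s N, 𝔼 y ∈ pw s j,
      (∏ l, ν (w l)) * (∏ i, st ν e w (y i)) * ind (𝔼 x ∈ s, st ν e w x ≤ 2) ≤ 2 ^ (j + 1) := by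
  have h5 : ∀ w : Fin N → α, 𝔼 y ∈ pw s j, (∏ l, ν (w l)) * (∏ i, st ν e w (y i)) *
      ind (𝔼 x ∈ s, st ν e w x ≤ 2) ≤ 2 ^ j * ∏ l, ν (w l) := fun w => by
    rw [← expect_mul, ← mul_expect, hs'.prod]
    have a1 := (prod_bd fun l => hν (w l)).1
    by_cases h : 𝔼 x ∈ s, st ν e w x ≤ 2
    · rw [ind_pos h, mul_one, mul_comm]
      exact mul_le_mul_of_nonneg_right (pow_le_pow_left₀
        (expect_nonneg fun x _ => (st_bd hν he w x).1) h j) a1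
    · rw [ind_neg h, mul_zero]
      positivity
  refine (expect_le_expect fun w _ => h5 w).trans ?_
  rw [← mul_expect, hs'.prod, pow_succ]
  exact mul_le_mul_of_nonneg_left h2 (by positivity)

end SelA

open SelA

theorem sel_of (hs' : STAR) (ht : TEL) : SEL := by
  intro Q _ n T p N ν ν' e g S G δ th hT hp hS hG hth hν hν' he hg hc h1 h2 h3 hδ hgr
  have hs : (bx Q n T).Nonempty := Fintype.piFinset_nonempty.2 fun _ =>
    (nonempty_range_iff.2 (by omega)).image _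
  have hδ0 : 0 ≤ δ := (abs_nonneg _).trans (hc (fun _ => 0) (fun _ => 0) (by simp) (by simp))
  have hX : ∀ a : ℕ, a ≤ (N + 1) * (p + 1) → S ^ a ≤ (S * G) ^ ((N + 1) * (p + 1)) := fun a ha =>
    (pow_le_pow_right₀ hS ha).trans (pow_le_pow_left₀ (by linarith only [hS])
      (le_mul_of_one_le_right (by linarith only [hS]) hG) _)
  have pt := fun j (hj : j < p) (w : Fin N → V Q n) (y : Fin j → V Q n) =>
    point hs (ν' := ν') (c := 1 / 2 ^ (p + 1)) (π := (∏ l, ν (w l)) * ∏ i, st ν e w (y i)) w y hj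
      hS hG (by linarith only [hth] : 0 ≤ th) (by positivity) hν he hg h1 h3 (by
        have := mul_bd (prod_bd fun l => hν (w l)) (prod_bd fun i => st_bd hν he w (y i))
        exact ⟨this.1, this.2.trans (le_trans (le_of_eq (by ring))
          (hX (N + (N + 1) * j) (by nlinarith only [hj])))⟩)
  rw [mul_comm 5, pow_mul] at hδ
  rw [mul_comm 4 ((N + 1) * (p + 1)), pow_mul]
  generalize (S * G) ^ ((N + 1) * (p + 1)) = X at hX pt hδ ⊢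
  have hX1 : 1 ≤ X := by simpa using hX 0 (by omega)
  have hb : ∀ k : ℕ, k ≤ (N + 1) * (p + 1) → 100 * (X ^ 4 * (k * X * δ)) ≤ 1 := fun k hk => by
    refine le_trans ?_ hδ
    have : (k : ℝ) ≤ ((N + 1) * (p + 1) : ℕ) := Nat.cast_le.2 hk
    calc _ = 100 * k * X ^ 5 * δ := by ring
      _ ≤ _ := by gcongr
  obtain ⟨j, hj, h4⟩ := ht.tel (fun j => grid T ν e g j N) p th hp hth (by
    rw [ht.zero]
    refine (zero hs' hs g N hS hν he hc (hX _ (by nlinarith only [hp])) h1 h2).trans ?_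
    have a1 := hb N (by nlinarith only [hp])
    have a2 : X ^ 3 * (N * X * δ) ≤ X ^ 4 * (N * X * δ) :=
      mul_le_mul_of_nonneg_right (pow_le_pow_right₀ hX1 (by norm_num)) (by positivity)
    linarith only [a1, a2]) hgr
  refine ⟨j, hj, ?_⟩
  have h5 := expect_le_expect fun w (_ : w ∈ pw (bx Q n T) N) =>
    expect_le_expect fun y (_ : y ∈ pw (bx Q n T) j) => pt j hj w y
  have d1 := devs hs' hs N j hS hν he hc (hX _ (by nlinarith only [hj]))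
  have d2 := devs hs' hs N j hS hν' he hc (hX _ (by nlinarith only [hj]))
  have d3 : 0 ≤ 𝔼 w ∈ pw (bx Q n T) N, 𝔼 y ∈ pw (bx Q n T) j, 𝔼 t ∈ bx Q n T,
      |(𝔼 x ∈ bx Q n T, st (st ν' e w) e y x * e x t) - 𝔼 x ∈ bx Q n T, st (st ν' e w) e y x| :=
    expect_nonneg fun _ _ => expect_nonneg fun _ _ => expect_nonneg fun _ _ => abs_nonneg _
  have d4 := first hs' N j hν he h2
  have d5 := hb (N + j + 1) (by nlinarith only [hj])
  simp only [ht.succ, ht.zero Q n T j] at h4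
  simp only [mul_sub, mul_left_comm _ ((th / 8) ^ 2), expect_sub_distrib, expect_add_distrib,
    ← mul_expect _ _ ((th / 8) ^ 2), ← mul_expect _ _ (X ^ 4), ← mul_expect _ _ (2 : ℝ),
    ← mul_expect _ _ (1 / 2 ^ (p + 1) : ℝ)] at h5
  simp only [expect_add_distrib] at d1 d2
  rw [show (1 : ℝ) / 2 ^ (p + 1) / 4 = 1 / 2 ^ (p + 3) by ring] at h5
  have d6 : (1 : ℝ) / 2 ^ (p + 1) * 2 ^ (j + 1) ≤ 1 / 2 := by
    rw [div_mul_eq_mul_div, div_le_div_iff₀ (by positivity) two_pos, one_mul, one_mul, ← pow_succ]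
    exact pow_le_pow_right₀ one_le_two (by omega)
  have d7 := mul_le_mul_of_nonneg_left d4 (by positivity : (0 : ℝ) ≤ 1 / 2 ^ (p + 1))
  have d8 : 0 ≤ X ^ 4 := by positivity
  rw [div_le_iff₀ (by positivity)]
  push_cast at d5
  linarith only [h4, h5, d5, d6, d7, mul_le_mul_of_nonneg_left d1 d8,
    mul_le_mul_of_nonneg_left d2 d8, mul_nonneg d8 d3]

end

end Vale.Agent.P057Z.Gr
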