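import Vale.Agent.P057Z.Sk
import Vale.Agent.P057Z.Bas0
import Vale.Agent.P057Z.Ke.Fol

/-! Block Gr (from the grid to S3): definitions and statements of the rows. -/

set_option linter.all false

open Finset
open scoped BigOperators

namespace Vale.Agent.P057Z.Gr

noncomputable section

section abs

variable {α : Type}

/-- tuples of elements of s -/
def pw (s : Finset α) (k : ℕ) : Finset (Fin k → α) := Fintype.piFinset fun _ => s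

/-- the cut norm of e - 1 is at most δ -/
def Cut (s : Finset α) (e : α → α → ℝ) (δ : ℝ) : Prop :=
  ∀ u v : α → ℝ, (∀ x, |u x| ≤ 1) → (∀ y, |v y| ≤ 1) →
    |𝔼 x ∈ s, 𝔼 y ∈ s, u x * v y * (e x y - 1)| ≤ δ

/-- the weight of a star -/
def st (ν : α → ℝ) (e : α → α → ℝ) {k : ℕ} (z : Fin k → α) (x : α) : ℝ := ν x * ∏ i, e x (z i)

/-- the function of x in the grid -/
def uu (ν : α → ℝ) (e : α → α → ℝ) (g : α → α → α → ℝ) {N j : ℕ} (w : Fin N → α) (y : Fin j → α)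
    (x : α) : ℝ := st (st ν e w) e y x * ∏ i, ∏ l, g x (y i) (w l)

/-- a good tuple -/
def GA (s : Finset α) (ν ν' : α → ℝ) (e : α → α → ℝ) (g : α → α → α → ℝ) (K θ η : ℝ) {N j : ℕ}
    (w : Fin N → α) (y : Fin j → α) : Prop :=
  𝔼 x ∈ s, st ν e w x ≤ 2 ∧ 𝔼 x ∈ s, st (st ν e w) e y x ≤ 2 ∧ 𝔼 x ∈ s, st ν' e w x ≤ 4 ∧
    𝔼 x ∈ s, st (st ν' e w) e y x ≤ 4 ∧ ∃ v : α → ℝ, (∀ x, 0 ≤ v x ∧ v x ≤ K * st ν e w x) ∧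
      η ≤ 𝔼 x ∈ s, 𝔼 t ∈ s, uu ν e g w y x * v t * (e x t * ∏ l, g x t (w l) - θ)

open Classical in
/-- indicator -/
def ind (p : Prop) : ℝ := if p then 1 else 0

end abs

/-- **STAR**: stars have the expected weight; averages over tuples -/
structure STAR : Prop where
  one : ∀ (α : Type) (s : Finset α) (e : α → α → ℝ) (ν : α → ℝ) (δ A : ℝ), Cut s e δ →
    (∀ x, |ν x| ≤ A) → 0 < A → 𝔼 y ∈ s, |(𝔼 x ∈ s, ν x * e x y) - 𝔼 x ∈ s, ν x| ≤ A * δ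
  all : ∀ (α : Type) (s : Finset α) (e : α → α → ℝ) (ν : α → ℝ) (δ A S : ℝ) (k : ℕ), s.Nonempty →
    Cut s e δ → (∀ x, |ν x| ≤ A) → 0 < A → 1 ≤ S → (∀ x y, |e x y| ≤ S) →
    𝔼 z ∈ pw s k, |(𝔼 x ∈ s, st ν e z x) - 𝔼 x ∈ s, ν x| ≤ k * (A * S ^ k) * δ
  snoc : ∀ (α : Type) (s : Finset α) (k : ℕ) (F : (Fin (k + 1) → α) → ℝ),
    𝔼 z ∈ pw s (k + 1), F z = 𝔼 z ∈ pw s k, 𝔼 h ∈ s, F (Fin.snoc z h)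
  prod : ∀ (α : Type) (s : Finset α) (k : ℕ) (ν : α → ℝ),
    𝔼 z ∈ pw s k, ∏ i, ν (z i) = (𝔼 x ∈ s, ν x) ^ k
  upd : ∀ (α : Type) (s : Finset α) (k : ℕ) (l : Fin k) (F : (Fin k → α) → ℝ),
    𝔼 z ∈ pw s k, F z = 𝔼 z ∈ pw s k, 𝔼 h ∈ s, F (Function.update z l h)
  mar : ∀ (α : Type) (s : Finset α) (D : α → ℝ) (c t g ε : ℝ), 0 < g → c + g ≤ t →
    𝔼 x ∈ s, |D x - c| ≤ ε → 𝔼 x ∈ s, ind (t < D x) ≤ ε / g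

/-- **TEL**: one more copy of y gains the factor; the two grids as averages over tuples -/
structure TEL : Prop where
  tel : ∀ (G : ℕ → ℝ) (p : ℕ) (th : ℝ), 1 ≤ p → 8 ≤ th → G 0 ≤ 9 → th ^ (2 * p) / 2 ≤ G p →
    ∃ j < p, 1 ≤ G (j + 1) - (th / 8) ^ 2 * G j
  zero : ∀ (Q : ℕ) [Fact Q.Prime] (n T j N : ℕ) (ν : V Q n → ℝ) (e : V Q n → V Q n → ℝ)
    (g : V Q n → V Q n → V Q n → ℝ), grid T ν e g j N =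
      𝔼 w ∈ pw (bx Q n T) N, 𝔼 y ∈ pw (bx Q n T) j, (∏ l, ν (w l)) * (∏ i, st ν e w (y i)) *
        (𝔼 x ∈ bx Q n T, uu ν e g w y x) ^ 2
  succ : ∀ (Q : ℕ) [Fact Q.Prime] (n T j N : ℕ) (ν : V Q n → ℝ) (e : V Q n → V Q n → ℝ)
    (g : V Q n → V Q n → V Q n → ℝ), grid T ν e g (j + 1) N =
      𝔼 w ∈ pw (bx Q n T) N, 𝔼 y ∈ pw (bx Q n T) j, (∏ l, ν (w l)) * (∏ i, st ν e w (y i)) *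
        𝔼 t ∈ bx Q n T, st ν e w t *
          (𝔼 x ∈ bx Q n T, uu ν e g w y x * (e x t * ∏ l, g x t (w l))) ^ 2

/-- **SEL**: many good tuples -/
def SEL : Prop :=
  ∀ (Q : ℕ) [Fact Q.Prime] (n T p N : ℕ) (ν ν' : V Q n → ℝ) (e : V Q n → V Q n → ℝ)
    (g : V Q n → V Q n → V Q n → ℝ) (S G δ th : ℝ), 1 ≤ T → 1 ≤ p → 1 ≤ S → 1 ≤ G → 8 ≤ th →
    (∀ x, 0 ≤ ν x ∧ ν x ≤ S) → (∀ x, 0 ≤ ν' x ∧ ν' x ≤ S) → (∀ x y, 0 ≤ e x y ∧ e x y ≤ S) →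
    (∀ x y w, 0 ≤ g x y w ∧ g x y w ≤ G) → Cut (bx Q n T) e δ →
    𝔼 x ∈ bx Q n T, ν x ≤ 3 / 2 → (𝔼 x ∈ bx Q n T, ν x) ^ N ≤ 2 → 𝔼 x ∈ bx Q n T, ν' x ≤ 2 →
    100 * ((N + 1) * (p + 1) : ℕ) * (S * G) ^ (5 * ((N + 1) * (p + 1))) * δ ≤ 1 →
    th ^ (2 * p) / 2 ≤ grid T ν e g p N →
    ∃ j < p, 1 / (4 * (S * G) ^ (4 * ((N + 1) * (p + 1)))) ≤
      𝔼 w ∈ pw (bx Q n T) N, 𝔼 y ∈ pw (bx Q n T) j,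
        ind (GA (bx Q n T) ν ν' e g (2 * G ^ (N * p)) (th / 16) (1 / 2 ^ (p + 3)) w y)

/-- **EQC**: consequences of equidistribution -/
def EQC : Prop :=
  ∀ (Q : ℕ) [Fact Q.Prime] (n : ℕ) (ι : Type) [Fintype ι] [DecidableEq ι] (B : Bil Q n ι)
    (K : Submodule (ZMod Q) (ι → ZMod Q)) (K0 K1 Tlo Thi : ℕ) (δ M η : ℝ),
    Reg B K K1 δ Tlo Thi → 0 ≤ δ → (∀ x y, B x y = B y x) → (∀ x y, B x y ∈ perp K) → 1 ≤ Tlo →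
    1000 * K0 ≤ K1 → 1000 < Q →
    (∀ (ρ : ℝ) (φ : (ι → ZMod Q) → ℝ), 0 < ρ → ρ ≤ 1 → Kern ρ φ K0 M η →
      ((ρ / (3 * (Fintype.card ι + 1))) ^ Fintype.card ι / 6 ≤ avg K φ 0 ∧ avg K φ 0 ≤ 1) ∧
      (∀ T, Tlo ≤ T → T ≤ Thi → Cut (bx Q n T) (ne B K φ) ((M * δ + 2 * η) / avg K φ 0)) ∧
      ∀ (r : ZMod Q) (k j : ℤ) (x1 : V Q n), j ≠ 0 → |j| ≤ 1000 → (j : ZMod Q) = 2 * r * k ^ 2 →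
        Mix (fun a => φ (r • B (x1 + k • a) (x1 + k • a)) / avg K φ 0) Tlo Thi
          ((M * δ + 2 * η) / avg K φ 0)) ∧
    ∀ (ρ ρ0 : ℝ) (φ φ0 : (ι → ZMod Q) → ℝ) (ℓ : V Q n →ₗ[ZMod Q] (ι → ZMod Q)) (T T' : ℕ),
      0 < ρ → ρ ≤ 1 → 0 < ρ0 → ρ0 ≤ 1 → Kern ρ φ K0 M η → Kern ρ0 φ0 K0 M η → Tlo ≤ T' →
      T' ≤ T → T ≤ Thi → T ≤ Q →
      𝔼 x ∈ bx Q n T, φ (ℓ x) / avg K φ 0 ≤ (𝔼 x ∈ bx Q n T, nv ℓ B K φ φ0 x) +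
        (M * (M * δ + 2 * η) + 2 * η + 12 * n * T' / T) / (avg K φ 0 * avg K φ0 0)

/-- **CHI**: the edge weight is a weight of the sum -/
structure CHI : Prop where
  pt : ∀ (Q : ℕ) [Fact Q.Prime] (n : ℕ) (ι : Type) [Fintype ι] [DecidableEq ι] (B : Bil Q n ι)
    (φ : (ι → ZMod Q) → ℝ) (ρ R : ℝ) (a b : ℤ) (x y : V Q n), (∀ x y, B x y = B y x) → 1000 < Q →
    a ≠ 0 → |a| ≤ 3 → b ≠ 0 → |b| ≤ 3 → 0 < ρ → LL (1 / ρ) φ → 72 * R ≤ ρ →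
    l1 ((12 : ZMod Q)⁻¹ • B x x) ≤ R → l1 ((12 : ZMod Q)⁻¹ • B y y) ≤ R →
    φ (B x y) ≤ 2 * φ (((2 * a * b : ℤ) : ZMod Q)⁻¹ • B (a • x + b • y) (a • x + b • y))
  cut : ∀ (α : Type) (s : Finset α) (u v : α → ℝ) (e χ g : α → α → ℝ) (C : α → Prop)
    (S τ θ η : ℝ), s.Nonempty → 0 ≤ θ → 0 ≤ τ → (∀ x, 0 ≤ u x ∧ u x ≤ S) → (∀ x, 0 ≤ v x ∧ v x ≤ S) →
    (∀ x y, 0 ≤ e x y ∧ e x y ≤ S) → (∀ x y, 0 ≤ g x y ∧ g x y ≤ S) →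
    (∀ x, ¬ C x → u x ≤ τ ∧ v x ≤ τ) → (∀ x y, C x → C y → e x y ≤ 2 * χ x y) →
    η ≤ 𝔼 x ∈ s, 𝔼 y ∈ s, u x * v y * (e x y * g x y - θ) →
    η / 2 - τ * S ^ 3 ≤ 𝔼 x ∈ s, 𝔼 y ∈ s,
      (ind (C x) * u x) * (ind (C y) * v y) * (χ x y * g x y - θ / 2)
  lin : ∀ (Q : ℕ) [Fact Q.Prime] (ι κ : Type) [Fintype ι] [DecidableEq ι] [Fintype κ]
    [DecidableEq κ] (φ : (ι → ZMod Q) → ℝ) (ρ R : ℝ) (s : Finset κ) (z v : κ × ι → ZMod Q) (k : ℤ),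
    0 < ρ → LL (1 / ρ) φ → |k| ≤ 18 → 72 * R ≤ ρ → l1 v ≤ R →
    ∏ m ∈ s, φ (fun i => (z + k • v) (m, i)) ≤ 2 * ∏ m ∈ s, φ fun i => z (m, i)
  blk : ∀ (Q : ℕ) [Fact Q.Prime] (ι κ : Type) [Fintype ι] [DecidableEq ι] [Fintype κ]
    [DecidableEq κ] (ρ : ℝ) (z : κ × ι → ZMod Q), lap ρ z = ∏ m, lap ρ fun i => z (m, i)
  tail : ∀ (Q : ℕ) [Fact Q.Prime] (κ : Type) [Fintype κ] [DecidableEq κ] (ρ ρ' R : ℝ)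
    (u v : κ → ZMod Q), 0 < ρ' → ρ' ≤ ρ → R ≤ l1 (u + v) →
    lap ρ u * lap ρ' v ≤ Real.exp (-R / ρ)

/-- the local form -/
def lf {Q : ℕ} [Fact Q.Prime] {n : ℕ} (T2 T3 T4 : ℕ) (β0 β1 β2 u v h : V Q n → ℝ) (θ : ℝ) : ℝ :=
  𝔼 a1 ∈ bx Q n T3, 𝔼 a2 ∈ bx Q n T4, 𝔼 t ∈ bx Q n T2,
    β1 a1 * β2 a2 * β0 t * u (a1 + a2) * v t * (h (a1 + a2 + t) - θ)

/-- the local data at (x1, y1) -/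
def GLo {Q : ℕ} [Fact Q.Prime] {n : ℕ} (T2 T3 T4 : ℕ) (β0 β1 β2 u v h Λu Λv : V Q n → ℝ)
    (Cu Cv : V Q n → Prop) (a b k1 k2 k : ℤ) (θ η : ℝ) (x1 y1 : V Q n) : Prop :=
  ∃ ul vl : V Q n → ℝ, (∀ z, 0 ≤ ul z ∧ ul z ≤ ind (Cu z) * u (x1 + k1 • z) / Λu x1) ∧
    (∀ z, 0 ≤ vl z ∧ vl z ≤ ind (Cv z) * v (y1 + k2 • z) / Λv y1) ∧
    𝔼 a1 ∈ bx Q n T3, 𝔼 a2 ∈ bx Q n T4, β1 a1 * β2 a2 * ul (a1 + a2) ≤ 1 ∧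
    𝔼 t ∈ bx Q n T2, β0 t * vl t ≤ 1 ∧
    η ≤ lf T2 T3 T4 β0 β1 β2 ul vl (fun z => h (a • x1 + b • y1 + k • z)) θ

/-- **LOCB**: localisation -/
def LOCB : Prop :=
  ∀ (Q : ℕ) [Fact Q.Prime] (n T T2 T3 T4 : ℕ) (β0 β1 β2 u v h Λu Λv : V Q n → ℝ)
    (Cu Cv : V Q n → Prop) (a b k1 k2 k : ℤ) (S A τ θ η : ℝ), 1 ≤ T4 → T4 ≤ T3 → T3 ≤ T2 → T2 ≤ T →
    T ≤ Q → a * k1 = k → b * k2 = k → |k1| ≤ 18 → |k2| ≤ 18 → 1 ≤ S → 1 ≤ A → 0 ≤ τ → 0 < η →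
    (∀ x, 0 ≤ β0 x) → (∀ x, 0 ≤ β1 x) → (∀ x, 0 ≤ β2 x) → 𝔼 t ∈ bx Q n T2, β0 t = 1 →
    𝔼 t ∈ bx Q n T3, β1 t = 1 → 𝔼 t ∈ bx Q n T4, β2 t = 1 →
    (∀ a1 a2, ¬ Cu (a1 + a2) → β1 a1 * β2 a2 ≤ τ) → (∀ t, ¬ Cv t → β0 t ≤ τ) →
    (∀ x, 0 ≤ u x ∧ u x ≤ S) → (∀ x, 0 ≤ v x ∧ v x ≤ S) → (∀ x, |h x - θ| ≤ S) →
    (∀ x, 0 < Λu x) → (∀ x, 0 < Λv x) → 𝔼 x ∈ bx Q n T, Λu x ≤ A → 𝔼 x ∈ bx Q n T, Λv x ≤ A →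
    𝔼 x ∈ bx Q n T, u x ≤ A → 𝔼 x ∈ bx Q n T, v x ≤ A →
    (1000 * n * T2 / T + 10 * τ) * S ^ 3 ≤ η → η ≤ 1 →
    η ≤ 𝔼 x ∈ bx Q n T, 𝔼 y ∈ bx Q n T, u x * v y * (h (a • x + b • y) - θ) →
    η / (4 * S ^ 3) ≤ 𝔼 x1 ∈ bx Q n T, 𝔼 y1 ∈ bx Q n T,
      ind (GLo T2 T3 T4 β0 β1 β2 u v h Λu Λv Cu Cv a b k1 k2 k θ (η / (36 * A ^ 2)) x1 y1)

/-- **LOW**: the local functions are large -/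
def LOW : Prop :=
  ∀ (Q : ℕ) [Fact Q.Prime] (n T2 T3 T4 Tlo Thi : ℕ) (β0 β1 β2 u v χ g : V Q n → ℝ)
    (S G δ θ η : ℝ), 1 ≤ T2 → 1 ≤ T3 → 1 ≤ T4 → Tlo ≤ T3 → T3 ≤ Thi → Tlo ≤ T2 → T2 ≤ Thi → 1 ≤ S →
    1 ≤ G → 0 ≤ θ → 0 < η → (∀ x, 0 ≤ β0 x ∧ β0 x ≤ S) → (∀ x, 0 ≤ β1 x ∧ β1 x ≤ S) →
    (∀ x, 0 ≤ β2 x ∧ β2 x ≤ S) → (∀ x, 0 ≤ u x ∧ u x ≤ S) → (∀ x, 0 ≤ v x ∧ v x ≤ S) →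
    (∀ x, 0 ≤ χ x) → (∀ x, 0 ≤ g x ∧ g x ≤ G) → Mix χ Tlo Thi δ → 2 * G * S ^ 5 * δ ≤ η →
    𝔼 a1 ∈ bx Q n T3, 𝔼 a2 ∈ bx Q n T4, β1 a1 * β2 a2 * u (a1 + a2) ≤ 1 →
    𝔼 t ∈ bx Q n T2, β0 t * v t ≤ 1 →
    η ≤ lf T2 T3 T4 β0 β1 β2 u v (fun z => χ z * g z) θ →
    η / (2 * G) ≤ 𝔼 a1 ∈ bx Q n T3, 𝔼 a2 ∈ bx Q n T4, β1 a1 * β2 a2 * u (a1 + a2) ∧
    η / (2 * G) ≤ 𝔼 t ∈ bx Q n T2, β0 t * v t ∧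
    θ * (𝔼 a1 ∈ bx Q n T3, 𝔼 a2 ∈ bx Q n T4, β1 a1 * β2 a2 * u (a1 + a2)) *
        (𝔼 t ∈ bx Q n T2, β0 t * v t) ≤
      𝔼 a1 ∈ bx Q n T3, 𝔼 a2 ∈ bx Q n T4, 𝔼 t ∈ bx Q n T2,
        β1 a1 * β2 a2 * β0 t * u (a1 + a2) * v t * (g (a1 + a2 + t) * χ (a1 + a2 + t))

/-- **D0**: telescoping in the copies of w -/
def D0 : Prop :=
  ∀ (α β Ξ : Type) [Nonempty Ξ] (s : Finset α) (s' : Finset β) (N : ℕ) (A F : α → β → ℝ)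
    (Y1 : β → ℝ) (kn : Ξ → β → ℝ) (S G θ θ0 κ0 κ : ℝ), s.Nonempty → 1 ≤ N → 1 ≤ G → 1 ≤ θ →
    θ ^ N ≤ θ0 → 0 < κ0 → (∀ h t, 0 ≤ A h t ∧ A h t ≤ 1) → (∀ h t, 0 ≤ F h t ∧ F h t ≤ G) →
    (∀ t, 0 ≤ Y1 t ∧ Y1 t ≤ S) → (∀ ξ t, 0 ≤ kn ξ t) →
    κ ≤ 𝔼 w ∈ pw s N, ind (∃ ξ, κ0 ≤ 𝔼 t ∈ s', Y1 t * kn ξ t * (∏ l, A (w l) t) *
      (∏ l, F (w l) t - θ0)) →
    ∃ (Y0 : β → ℝ) (ξ : α → Ξ), (∀ t, 0 ≤ Y0 t ∧ Y0 t ≤ S * G ^ N) ∧ κ / N ≤ 𝔼 h ∈ s,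
      ind (κ0 / (N * θ ^ N) ≤ 𝔼 t ∈ s', Y0 t * kn (ξ h) t * A h t * (F h t - θ))

/-- **D1**: the two variables on one lattice -/
def D1 : Prop :=
  ∀ (Q : ℕ) [Fact Q.Prime] (n T T6 T7 W r : ℕ) (ι : Type) [Fintype ι] [DecidableEq ι]
    (B : Bil Q n ι) (f Y0 : V Q n → ℝ) (ξ : V Q n → Fin r → V Q n) (p0 t2 : V Q n) (c k : ℤ)
    (S G θ ρn ρ5 κa κb : ℝ), 1 ≤ T7 → 1 ≤ W → 1 ≤ T6 → T6 ≤ T → T ≤ Q → |c| ≤ 3 → |k| ≤ 54 →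
    0 < ρn → 0 < ρ5 → 1 ≤ S → 0 < κa → 0 < κb → (∀ x, |f x - θ| ≤ G) →
    (∀ t, 0 ≤ Y0 t ∧ Y0 t ≤ S) → 1000 * n * (W * T7) / T6 * (S * G) ≤ κa * κb →
    κa ≤ 𝔼 h ∈ bx Q n T, ind (κb ≤ 𝔼 t ∈ bx Q n T6, Y0 t *
      lap ρn (fun i => ξ h i ⬝ᵥ (t - t2)) * lap ρ5 (B h (t - t2)) * (f (p0 + c • h + k • t) - θ)) →
    ∃ (x1 : V Q n) (ξ' : V Q n → Fin r → V Q n),
      S3 (fun z => f (x1 + (k * c) • z)) θ T7 W ξ' ((k * c) • B) ρn ρ5 (κa * κb / (2 * S))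

end

end Vale.Agent.P057Z.Gr
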