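import Vale.Agent.P057Z.Gr.Sk

/-! Block Gr: stars and telescoping. -/

set_option linter.all false

open Finset
open scoped BigOperators

namespace Vale.Agent.P057Z.Gr

namespace Star

variable {α : Type} {s : Finset α}

theorem mem_pw {k : ℕ} {z : Fin k → α} : z ∈ pw s k ↔ ∀ i, z i ∈ s := Fintype.mem_piFinset

theorem one (e : α → α → ℝ) (ν : α → ℝ) (δ A : ℝ) (h : Cut s e δ) (hν : ∀ x, |ν x| ≤ A)
    (hA : 0 < A) : 𝔼 y ∈ s, |(𝔼 x ∈ s, ν x * e x y) - 𝔼 x ∈ s, ν x| ≤ A * δ := by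
  have key := h (fun x => ν x / A)
    (fun y => if 0 ≤ (𝔼 x ∈ s, ν x * e x y) - 𝔼 x ∈ s, ν x then 1 else -1)
    (fun x => by rw [abs_div, abs_of_pos hA, div_le_one hA]; exact hν x)
    fun y => by split_ifs <;> simp
  refine le_trans (le_of_eq ?_) (mul_le_mul_of_nonneg_left ((le_abs_self _).trans key) hA.le)
  rw [expect_comm, mul_expect]
  refine expect_congr rfl fun y _ => ?_
  have e1 : ∀ c : ℝ, A * 𝔼 x ∈ s, ν x / A * c * (e x y - 1) =
      c * ((𝔼 x ∈ s, ν x * e x y) - 𝔼 x ∈ s, ν x) := fun c => by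
    rw [← expect_sub_distrib, mul_expect, mul_expect]
    exact expect_congr rfl fun x _ => by field_simp
  rw [e1]
  split_ifs with h1
  · rw [abs_of_nonneg h1, one_mul]
  · rw [abs_of_neg (not_le.1 h1), neg_one_mul]

theorem snoc (s : Finset α) (k : ℕ) (F : (Fin (k + 1) → α) → ℝ) :
    𝔼 z ∈ pw s (k + 1), F z = 𝔼 z ∈ pw s k, 𝔼 h ∈ s, F (Fin.snoc z h) := by
  rw [← expect_product' (pw s k) s fun z h => F (Fin.snoc z h)]
  refine expect_nbij' (fun z => (Fin.init z, z (Fin.last k))) (fun p => Fin.snoc p.1 p.2)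
    (fun z hz => mem_product.2 ⟨mem_pw.2 fun i => mem_pw.1 hz _, mem_pw.1 hz _⟩)
    (fun p hp => mem_pw.2 fun i => ?_) (fun z _ => by simp) (fun z _ => by simp) fun p _ => by simp
  obtain ⟨h1, h2⟩ := mem_product.1 hp
  induction i using Fin.lastCases with
  | last => simpa using h2
  | cast i => simpa using mem_pw.1 h1 i

theorem st_snoc (ν : α → ℝ) (e : α → α → ℝ) {k : ℕ} (z : Fin k → α) (h x : α) :
    st ν e (Fin.snoc z h : Fin (k + 1) → α) x = st ν e z x * e x h := by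
  simp [st, Fin.prod_univ_castSucc, mul_assoc]

theorem pw_zero (F : (Fin 0 → α) → ℝ) : 𝔼 z ∈ pw s 0, F z = F default := by
  rw [pw, Fintype.piFinset_of_isEmpty, univ_unique, expect_singleton]

theorem all (e : α → α → ℝ) (ν : α → ℝ) (δ A S : ℝ) (k : ℕ) (hs : s.Nonempty) (h : Cut s e δ)
    (hν : ∀ x, |ν x| ≤ A) (hA : 0 < A) (hS : 1 ≤ S) (he : ∀ x y, |e x y| ≤ S) :
    𝔼 z ∈ pw s k, |(𝔼 x ∈ s, st ν e z x) - 𝔼 x ∈ s, ν x| ≤ k * (A * S ^ k) * δ := by
  have hδ : 0 ≤ δ := (abs_nonneg _).trans (h 0 0 (fun _ => by simp) fun _ => by simp)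
  induction k with
  | zero => simp [pw_zero, st]
  | succ k ih =>
    have h0 : 0 < A * S ^ k := by positivity
    have hp : (pw s k).Nonempty := Fintype.piFinset_nonempty.2 fun _ => hs
    rw [snoc]
    calc _ ≤ 𝔼 z ∈ pw s k, (|(𝔼 x ∈ s, st ν e z x) - 𝔼 x ∈ s, ν x| + A * S ^ k * δ) := by
          refine expect_le_expect fun z _ => ?_
          have h1 := one e (st ν e z) δ _ h (fun x => by
            rw [st, abs_mul, abs_prod]
            refine mul_le_mul (hν x) ((prod_le_prod (fun _ _ => abs_nonneg _) fun i _ =>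
              he x (z i)).trans_eq (by simp)) (by positivity) hA.le) h0
          refine le_trans ?_ (add_le_add_right h1 _)
          rw [← expect_const hs |(𝔼 x ∈ s, st ν e z x) - _|, ← expect_add_distrib]
          refine expect_le_expect fun y _ => ?_
          simp only [st_snoc]
          rw [add_comm]
          exact abs_sub_le _ _ _
      _ ≤ k * (A * S ^ k) * δ + A * S ^ k * δ := by
          rw [expect_add_distrib, expect_const hp]; exact add_le_add_left ih _
      _ = (k + 1 : ℕ) * (A * S ^ k * 1) * δ := by push_cast; ring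
      _ ≤ (k + 1 : ℕ) * (A * S ^ k * S) * δ := by gcongr
      _ = _ := by ring

theorem prod (s : Finset α) (k : ℕ) (ν : α → ℝ) :
    𝔼 z ∈ pw s k, ∏ i, ν (z i) = (𝔼 x ∈ s, ν x) ^ k := by
  induction k with
  | zero => simp [pw_zero]
  | succ k ih =>
    simp only [snoc, Fin.prod_univ_castSucc, Fin.snoc_castSucc, Fin.snoc_last, ← mul_expect]
    rw [← expect_mul, ih, pow_succ]

theorem upd (s : Finset α) (k : ℕ) (l : Fin k) (F : (Fin k → α) → ℝ) :
    𝔼 z ∈ pw s k, F z = 𝔼 z ∈ pw s k, 𝔼 h ∈ s, F (Function.update z l h) := by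
  have hm : ∀ p ∈ pw s k ×ˢ s, (Function.update p.1 l p.2, p.1 l) ∈ pw s k ×ˢ s := fun p hp => by
    obtain ⟨h1, h2⟩ := mem_product.1 hp
    refine mem_product.2 ⟨mem_pw.2 fun i => ?_, mem_pw.1 h1 l⟩
    rcases eq_or_ne i l with rfl | h
    · simpa using h2
    · simpa [h] using mem_pw.1 h1 i
  rw [← expect_product' (pw s k) s fun z h => F (Function.update z l h),
    expect_nbij' (g := fun p : (Fin k → α) × α => F p.1) _ _ hm hm (fun z _ => by simp)
      (fun z _ => by simp) fun p _ => rfl, expect_product]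
  exact expect_congr rfl fun z hz => (expect_const ⟨_, mem_pw.1 hz l⟩ _).symm

theorem mar (s : Finset α) (D : α → ℝ) (c t g ε : ℝ) (hg : 0 < g) (h : c + g ≤ t)
    (hε : 𝔼 x ∈ s, |D x - c| ≤ ε) : 𝔼 x ∈ s, ind (t < D x) ≤ ε / g := by
  refine le_trans ?_ (div_le_div_of_nonneg_right hε hg.le)
  rw [expect_div]
  refine expect_le_expect fun x _ => ?_
  unfold ind
  split_ifs with h1
  · rw [one_le_div hg]; linarith only [le_abs_self (D x - c), h, h1]
  · positivity

theorem tel (G : ℕ → ℝ) (p : ℕ) (th : ℝ) (hp : 1 ≤ p) (hth : 8 ≤ th) (h0 : G 0 ≤ 9)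
    (h : th ^ (2 * p) / 2 ≤ G p) : ∃ j < p, 1 ≤ G (j + 1) - (th / 8) ^ 2 * G j := by
  by_contra hh
  push Not at hh
  have h1 : 1 ≤ (th / 8) ^ 2 := one_le_pow₀ (by linarith only [hth])
  have key : ∀ j ≤ p, G j ≤ 9 * (2 * (th / 8) ^ 2) ^ j := fun j hj => by
    induction j with
    | zero => simpa using h0
    | succ j ih =>
      have h2 : 1 ≤ (2 * (th / 8) ^ 2) ^ j := one_le_pow₀ (by linarith only [h1])
      rw [pow_succ]
      nlinarith only [hh j hj, mul_le_mul_of_nonneg_left (ih (by omega)) (zero_le_one.trans h1),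
        one_le_mul_of_one_le_of_one_le h1 h2]
  have h3 : th ^ (2 * p) = 32 ^ p * (2 * (th / 8) ^ 2) ^ p := by
    rw [pow_mul, ← mul_pow]; congr 1; ring
  have h4 : (32 : ℝ) ≤ 32 ^ p := le_self_pow₀ (by norm_num) (by omega)
  have h5 : 0 < (2 * (th / 8) ^ 2) ^ p := by positivity
  nlinarith only [key p le_rfl, h, h3, h4, h5]

end Star

theorem star : STAR :=
  ⟨fun _ _ => Star.one, fun _ _ => Star.all, fun _ => Star.snoc, fun _ => Star.prod,
    fun _ => Star.upd, fun _ => Star.mar⟩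

theorem tel_of (H : STAR) : TEL := by
  have zero : ∀ (Q : ℕ) [Fact Q.Prime] (n T j N : ℕ) (ν : V Q n → ℝ) (e : V Q n → V Q n → ℝ)
      (g : V Q n → V Q n → V Q n → ℝ), grid T ν e g j N =
      𝔼 w ∈ pw (bx Q n T) N, 𝔼 y ∈ pw (bx Q n T) j, (∏ l, ν (w l)) * (∏ i, st ν e w (y i)) *
        (𝔼 x ∈ bx Q n T, uu ν e g w y x) ^ 2 := fun Q _ n T j N ν e g => by
    simp only [grid, pw, uu, st, prod_mul_distrib, mul_assoc]
  refine ⟨Star.tel, zero, fun Q _ n T j N ν e g => ?_⟩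
  rw [zero]
  refine expect_congr rfl fun w _ => ?_
  rw [H.snoc]
  refine expect_congr rfl fun y _ => ?_
  rw [mul_expect]
  refine expect_congr rfl fun t _ => ?_
  simp only [uu, Star.st_snoc, Fin.prod_univ_castSucc, Fin.snoc_castSucc, Fin.snoc_last]
  rw [mul_assoc, mul_assoc, mul_assoc]
  congr 4
  exact expect_congr rfl fun x _ => by ring

end Vale.Agent.P057Z.Gr
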