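import Vale.Agent.P057Z.Gr.Fin
import Vale.Agent.P057Z.Gr.Nu2
import Vale.Agent.P057Z.Gr.Star
import Vale.Agent.P057Z.Gr.Sel
import Vale.Agent.P057Z.Gr.Eqc
import Vale.Agent.P057Z.Gr.Chi
import Vale.Agent.P057Z.Gr.Locb
import Vale.Agent.P057Z.Gr.D0
import Vale.Agent.P057Z.Gr.D1

/-! Block Gr: from the grid to S3. -/

set_option linter.all false

open Finset Real
open scoped BigOperators

namespace Vale.Agent.P057Z.Gr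

open Nu Ke

noncomputable section

theorem sides {T W Q : ℕ} (h2 : 1001 ≤ W) (h : W ^ 20 ≤ T) (hQ : T ^ 2 ≤ Q) :
    (∀ i ≤ 20, 1 ≤ T / W ^ i) ∧ T / W * W ≤ T ∧ T / W ^ 2 * W ≤ T / W ∧ 1001 ≤ T ∧ 4 * T ≤ Q ∧
      W * (T / W ^ 12) * W ≤ T / W ^ 4 := by
  have a : W ^ 1 ≤ W ^ 20 := Nat.pow_le_pow_right (by omega) (by omega)
  rw [pow_one] at a
  refine ⟨fun i hi => (Nat.one_le_div_iff (by positivity)).2
    ((Nat.pow_le_pow_right (by omega) hi).trans h), Nat.div_mul_le_self _ _,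
    by simpa using div_step T W 1, by omega, by nlinarith, ?_⟩
  rw [mul_comm W]
  exact ((Nat.mul_le_mul_right W (div_step T W 11)).trans (div_step T W 10)).trans
    (div_anti T (by omega) (by omega))

theorem cast_mix {Q : ℕ} [Fact Q.Prime] (hQ : 1000 < Q) {a b : ℤ} (ha : a ≠ 0 ∧ |a| ≤ 3)
    (hb : b ≠ 0 ∧ |b| ≤ 3) :
    (6 * a * a ≠ 0 ∧ |6 * a * a| ≤ 1000 ∧
      ((6 * a * a : ℤ) : ZMod Q) = 2 * (12 : ZMod Q)⁻¹ * ((6 * a : ℤ) : ZMod Q) ^ 2) ∧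
    36 * a * b ≠ 0 ∧ |36 * a * b| ≤ 1000 ∧ ((36 * a * b : ℤ) : ZMod Q) =
      2 * ((2 * a * b : ℤ) : ZMod Q)⁻¹ * ((6 * a * b : ℤ) : ZMod Q) ^ 2 := by
  have h1 := mul_le_mul ha.2 ha.2 (abs_nonneg _) (by norm_num)
  have h2 := mul_le_mul ha.2 hb.2 (abs_nonneg _) (by norm_num)
  have hq : (1000 : ℤ) < Q := by exact_mod_cast hQ
  have k : ∀ j : ℤ, j ≠ 0 → |j| ≤ 12 → (j : ZMod Q) ≠ 0 := fun j h h' => int_ne j h (by omega)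
  have c12 : (12 : ZMod Q) ≠ 0 := by exact_mod_cast k 12 (by norm_num) (by norm_num)
  have c2 : (2 : ZMod Q) ≠ 0 := by exact_mod_cast k 2 (by norm_num) (by norm_num)
  have ca := k a ha.1 (by omega)
  have cb := k b hb.1 (by omega)
  refine ⟨⟨by simp [ha.1], ?_, ?_⟩, by simp [ha.1, hb.1], ?_, ?_⟩
  · rw [abs_mul, abs_mul]
    norm_num
    linarith
  · push_cast
    field_simp
    ring
  · rw [abs_mul, abs_mul]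
    norm_num
    linarith
  · push_cast
    field_simp
    ring

section

variable {Q : ℕ} [Fact Q.Prime] {n T T0 T2 T6 W K0 K1 p N r : ℕ} {ι : Type} [Fintype ι]
  [DecidableEq ι] {f : V Q n → ℝ} {e1 X Y Z D ZC YC E F δ ρ' ρ0 M η : ℝ} {B : Bil Q n ι}
  {φ φ0 : (ι → ZMod Q) → ℝ} {K : Submodule (ZMod Q) (ι → ZMod Q)} {x0 : V Q n}
  {ℓ : V Q n →ₗ[ZMod Q] (ι → ZMod Q)} {a b c : ℤ}

theorem eqn (hE : EQC) (hX : 1000 ≤ X) (p2 : X ≤ Y) (p3 : Y ≤ Z) (y3 : 100 * (Y ^ 6 + Z) ≤ D)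
    (z2 : 1000 * D ≤ ZC) (hι : (Fintype.card ι : ℝ) ≤ Y) (q : 1000 < Q) (sym : ∀ x y, B x y = B y x)
    (hB : ∀ x y, B x y ∈ perp K) (δ0 : 0 ≤ δ) (hδ : δ ≤ exp (-ZC)) (hR : Reg B K K1 δ T0 T)
    (hK0 : 1000 * K0 ≤ K1) (r0 : exp (-Y) ≤ ρ0) (r3 : ρ0 ≤ ρ') (r2 : ρ' ≤ 1) (hM : M ≤ exp Y)
    (hη : η ≤ exp (-ZC)) (kφ : Kern ρ' φ K0 M η) (kφ0 : Kern ρ0 φ0 K0 M η) (a0 : a ≠ 0 ∧ |a| ≤ 3)
    (b0 : b ≠ 0 ∧ |b| ≤ 3) (t0 : 1 ≤ T0) (t1 : T0 ≤ T6) (t2 : T6 ≤ T2) (t3 : 2 * T2 ≤ T)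
    (t4 : T ≤ Q) (fol : (n : ℝ) * T2 / T ≤ exp (Z - ZC)) :
    exp (-(4 * Y ^ 2)) ≤ avg K φ 0 ∧ exp (-(4 * Y ^ 2)) ≤ avg K φ0 0 ∧
    (∃ δ', δ' ≤ exp (-D) ∧ Cut (bx Q n T) (ne B K φ) δ') ∧
    (∀ (x1 : V Q n) (k : ℤ), k ≠ 0 → |k| ≤ 3 → Mix (fun z => φ0 ((12 : ZMod Q)⁻¹ •
      B (x1 + (6 * k) • z) (x1 + (6 * k) • z)) / avg K φ0 0) T6 (2 * T2) (exp (-D))) ∧
    (∀ s, Mix (fun z => φ (((2 * a * b : ℤ) : ZMod Q)⁻¹ • B (s + (6 * a * b) • z)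
      (s + (6 * a * b) • z)) / avg K φ 0) T6 (2 * T2) (exp (-D))) ∧
    𝔼 x ∈ bx Q n T, φ (ℓ x) / avg K φ 0 ≤ (𝔼 x ∈ bx Q n T, nv ℓ B K φ φ0 x) + 1 / 2 := by
  obtain ⟨-, ⟨_, _, _, _, _⟩, -⟩ := pows hX p2
  have ρ0p := (exp_pos _).trans_le r0
  obtain ⟨E1, E2⟩ := hE Q n ι B K K0 K1 _ _ δ M η hR δ0 sym hB t0 hK0 q
  obtain ⟨⟨m1, -⟩, m2, m3⟩ := E1 ρ' φ (ρ0p.trans_le r3) r2 kφ
  obtain ⟨⟨n1, -⟩, -, n3⟩ := E1 ρ0 φ0 ρ0p (r3.trans r2) kφ0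
  have hι' := mul_le_mul_of_nonneg_left hι (show 0 ≤ 3 * Y by linarith)
  have lb : ∀ {ρ m : ℝ}, ρ0 ≤ ρ → (ρ / (3 * (Fintype.card ι + 1))) ^ Fintype.card ι / 6 ≤ m →
      exp (-(4 * Y ^ 2)) ≤ m := fun h h' => ((exp_le_exp.2 (by linarith)).trans
    (mass_lb (hX.trans p2) (((exp_le_exp.2 (by linarith)).trans r0).trans h) (by linarith))).trans h'
  have m4 := lb r3 m1
  have n4 := lb le_rfl n1
  have er : M * δ + 2 * η ≤ exp (2 * Y - ZC) := by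
    have a : M * δ ≤ exp (Y - ZC) := xx hM hδ δ0 (by linarith)
    have b : η ≤ exp (Y - ZC) := hη.trans (exp_le_exp.2 (by linarith))
    have c : 3 * exp (Y - ZC) ≤ exp (2 * Y - ZC) := cx hX (by norm_num) (by linarith)
    linarith
  have ed : ∀ {m : ℝ}, exp (-(4 * Y ^ 2)) ≤ m → (M * δ + 2 * η) / m ≤ exp (-D) := fun h =>
    dx er h (by linarith)
  refine ⟨m4, n4, ⟨_, ed m4, m2 T (by omega) le_rfl⟩,
    fun x1 k k0 k3 => have h := (cast_mix q ⟨k0, k3⟩ ⟨k0, k3⟩).1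
      mix_mono (n3 _ _ _ x1 h.1 h.2.1 h.2.2) t1 t3 (ed n4),
    fun s => have h := (cast_mix q a0 b0).2
      mix_mono (m3 _ _ _ s h.1 h.2.1 h.2.2) t1 t3 (ed m4), ?_⟩
  refine (E2 ρ' ρ0 φ φ0 ℓ T T2 (ρ0p.trans_le r3) r2 ρ0p (r3.trans r2) kφ kφ0 (by omega)
    (by omega) le_rfl t4).trans ?_
  have a : M * (M * δ + 2 * η) ≤ exp (Z + 3 * Y - ZC) := by
    obtain ⟨cf, h1, h2⟩ := kφ.fa
    have M0 : 0 ≤ M := (sum_nonneg fun _ _ => norm_nonneg _).trans h1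
    exact (mul_le_mul_of_nonneg_left er M0).trans (xx hM le_rfl (exp_pos _).le (by linarith))
  have b : η ≤ exp (Z + 3 * Y - ZC) := hη.trans (exp_le_exp.2 (by linarith))
  have c := fol.trans (exp_le_exp.2 (show _ ≤ Z + 3 * Y - ZC by linarith))
  have e : 15 * exp (Z + 3 * Y - ZC) ≤ exp (Z + 4 * Y - ZC) := cx hX (by norm_num) (by linarith)
  have g := mul_le_mul m4 n4 (exp_pos _).le ((exp_pos _).le.trans m4)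
  have h : 2 * exp (-X) ≤ exp 0 := cx hX (by norm_num) (by linarith)
  rw [← exp_add] at g
  rw [exp_zero] at h
  rw [mul_assoc 12, mul_div_assoc 12]
  have k := dx (show M * (M * δ + 2 * η) + 2 * η + 12 * ((n : ℝ) * T2 / T) ≤
    exp (Z + 4 * Y - ZC) by linarith) g (C := -X) (by linarith)
  linarith

theorem core (hE : EQC) (hP : POP) (e0 : 0 < e1) (e1' : e1 ≤ 1) (hX : 1000 ≤ X) (p2 : X ≤ Y)
    (p3 : Y ≤ Z) (y1 : 1 ≤ E) (y2 : 1000 * (E + Y ^ 6) ≤ YC) (y3 : 100 * (E + Y ^ 6 + Z) ≤ D)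
    (z2 : 1000 * D ≤ ZC) (r4 : exp (-(2 * Y)) ≤ ρ0 / E) (hn : (n : ℝ) ≤ Z)
    (hι : (Fintype.card ι : ℝ) ≤ Y) (hW : exp ZC ≤ W) (hW1 : 1001 ≤ W) (hT : W ^ 20 ≤ T)
    (hQ : T ^ 2 ≤ Q) (hf : ∀ x, 0 ≤ f x ∧ f x ≤ exp X) (sym : ∀ x y, B x y = B y x)
    (hB : ∀ x y, B x y ∈ perp K) (δ0 : 0 ≤ δ) (hδ : δ ≤ exp (-ZC))
    (hR : Reg B K K1 δ (T / W ^ 15) T) (hK0 : 1000 * K0 ≤ K1) (r0 : exp (-Y) ≤ ρ0)
    (r1 : ZC * ρ0 ≤ ρ') (r2 : ρ' ≤ 1) (hM : M ≤ exp Y) (hη : η ≤ exp (-ZC))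
    (kφ : Kern ρ' φ K0 M η) (kφ0 : Kern ρ0 φ0 K0 M η) (a0 : a ≠ 0 ∧ |a| ≤ 3)
    (b0 : b ≠ 0 ∧ |b| ≤ 3) (c3 : |c| ≤ 3) (hp1 : 1 ≤ p) (hp : (p : ℝ) ≤ X) (hN1 : 1 ≤ N)
    (hN : (N : ℝ) ≤ X) (he : 100 ≤ e1 * N)
    (hν : |(𝔼 y ∈ bx Q n T, nv ℓ B K φ φ0 y) - 1| ≤ exp (-YC))
    (hg : (1 + e1) ^ (2 * p * N) / 2 ≤ grid T (nv ℓ B K φ φ0) (ne B K φ)
      (fun x y w => f (x0 + a • x + b • y + c • w)) p N)
    (km : Dt.KMs ⟨X, Y, ρ', ρ0, ρ0 / E, exp (-F), ρ0 / E * exp (-F), exp (-D), exp (-E), avg K φ 0,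
      avg K φ0 0, T, T / W, T / W ^ 2, T / W ^ 3, T / W ^ 4, r, f, B, φ, φ0, x0, ℓ, a, b, c⟩) :
    ∃ (x1 : V Q n) (ξ : V Q n → Fin r → V Q n), S3 (fun z => f (x1 + (6 * a * b * c) • z))
      (1 + e1 / 4) (T / W ^ 12) W ξ ((6 * a * b * c) • B) (exp (-F)) (ρ0 / E * exp (-F))
      (exp (-YC)) := by
  have y6 : 1000 * Y ≤ Y ^ 6 := by
    obtain ⟨-, ⟨_, _, _, _, _⟩, -⟩ := pows hX p2
    linarith
  obtain ⟨s0, s1, s2, s3, s4, s5⟩ := sides hW1 hT hQ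
  have l1 : 2 * (T / W) ≤ T := (mul_comm _ _).trans_le ((Nat.mul_le_mul_left _ (by omega)).trans s1)
  have an : ∀ {i j : ℕ}, i ≤ j → T / W ^ j ≤ T / W ^ i := div_anti T (by omega)
  have l2 : ∀ {j : ℕ}, 1 ≤ j → T / W ^ j ≤ T / W := fun h => by simpa using an h
  have q : 1000 < Q := by omega
  have ρ0p := (exp_pos _).trans_le r0
  have r3 : ρ0 ≤ ρ' := (le_mul_of_one_le_left ρ0p.le (by linarith)).trans r1
  have fol := ratio s1 (by omega) hW hn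
  obtain ⟨m4, n4, ⟨δ', m1, m2⟩, n3, m3, v3⟩ := eqn (ℓ := ℓ) (D := D) hE hX p2 p3 (by linarith) z2 hι q
    sym hB δ0 hδ hR hK0 r0 r3 r2 hM hη kφ kφ0 a0 b0 (s0 15 (by omega)) (an (by omega : 4 ≤ 15))
    (l2 (by omega)) l1 (by omega) fol
  have ok : Dt.Ok ⟨X, Y, ρ', ρ0, ρ0 / E, exp (-F), ρ0 / E * exp (-F), exp (-D), exp (-E), avg K φ 0,
      avg K φ0 0, T, T / W, T / W ^ 2, T / W ^ 3, T / W ^ 4, r, f, B, φ, φ0, x0, ℓ, a, b, c⟩ :=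
    ⟨hX, p2, hι, q, hf, sym, kφ.ll, fun u => ⟨(kφ0.ll.pos u).le, kφ0.ll.le_one u, kφ0.hi u⟩, m4, n4,
      r4, div_le_self ρ0p.le y1, r3.trans r2, le_trans ((mul_assoc _ _ _).symm.trans_le
        (mul_le_mul_of_nonneg_right (show 72 * Y ^ 6 ≤ ZC by linarith) ρ0p.le)) r1, a0, b0,
      ⟨s0 4 (by omega), an (by omega), an (by omega), l2 (by omega), Nat.div_le_self _ _,
        show T ≤ Q by omega⟩, fol.trans (exp_le_exp.2 (show _ ≤ -Y ^ 6 by linarith)),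
      exp_le_exp.2 (show _ ≤ -Y ^ 6 by linarith), (exp_pos _).le, n3, m3, km⟩
  obtain ⟨v1, v2⟩ := near_one hX (by linarith) hN (expect_nonneg fun x _ => (ok.dν x).1) hν
  obtain ⟨w1, w2, w3, w4⟩ := seln hX p2 hN hp (m1.trans ok.δ)
  obtain ⟨g1, g2⟩ := gain e0 e1' he
  obtain ⟨j, hj, hs⟩ := sel_of star (tel_of star) Q n T p N _ _ _ _ (exp (Y ^ 3)) (exp X) _
    ((1 + e1) ^ N) (by omega) hp1 (one_le_exp (pow_nonneg (by linarith) 3)) (one_le_exp (by linarith)) g1 ok.dν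
    (fun _ => ok.dφ _) (fun _ _ => ok.dφ _) (fun _ _ _ => hf _) m2 v1 v2
    (v3.trans (add_le_of_le_sub_right (v1.trans (by norm_num)))) w1 (by rwa [← pow_mul, mul_comm N])
  have hj' : (j : ℝ) + 1 ≤ X := le_trans (by exact_mod_cast hj) hp
  obtain ⟨x1', ξ, u, Y', γ, α, β, hu, hY', hf⟩ := ok.fin chi low locb hP (d0_of star) d1 hN1 hN hj' w3
    (by linarith) ((pow_le_pow_left₀ (by linarith) (by linarith) N).trans (two_pow hN)) w4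
    (θ := 1 + e1 / 4) (by linarith) (by linarith) g2 c3 (exp_pos _)
    (mul_pos ((exp_pos _).trans_le r4) (exp_pos _)) le_rfl (s0 12 (by omega)) (show 1 ≤ W by omega)
    (le_trans (by rw [Nat.cast_mul]) ((ratio s5 (s0 4 (by omega)) hW hn).trans (exp_le_exp.2
      (show _ ≤ -(2 * E + 4 * Y ^ 6) by linarith)))) (w2.trans hs)
  exact ⟨x1', ξ, u, Y', γ, α, β, hu, hY',
    (exp_le_exp.2 (show _ ≤ -(2 * E + 4 * Y ^ 6) by linarith)).trans hf⟩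

end

theorem gr_of (hK : KM) (hE : EQ) (hA : AVG) (hP : POP) : GR := by
  intro e1 e0 e1'
  obtain ⟨c', Ck, -, hc', hK⟩ := hK (1 / 100) (by norm_num) le_rfl
  refine ⟨4 * Ck + 1000, ?_⟩
  intro X Y Z Q _ n T W K0 K1 p N ι _ _ f δ ρ' ρ0 M η B φ φ0 K x0 ℓ a b c ⟨p1, p2, p3, p4⟩ hn hι hW
    hT hQ hf sym hB hℓ δ0 hδ hR hK0 r0 r1 r2 hM hη kφ kφ0 a0 a3 b0 b3 c0 c3 hp1 hp hN1 hN he hν hg
  push_cast at p1
  have hk : (0 : ℝ) ≤ Ck := by positivity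
  have hX : 1000 ≤ X := by linarith
  obtain ⟨⟨x1, x2⟩, ⟨y1, y2, y3⟩, z1, z2, x3, x4, y4, z3⟩ := big hX p2 p3 hc'
  have y5 : 1000 * Y ≤ Y ^ 4 ∧ 0 ≤ Y ^ 6 := by
    obtain ⟨-, ⟨_, _, _, _, _⟩, -⟩ := pows hX p2
    exact ⟨by linarith, by linarith⟩
  obtain ⟨y5, y6⟩ := y5
  have hW1 : 1001 ≤ W := by
    exact_mod_cast (show (1001 : ℝ) ≤ W by linarith [add_one_le_exp (Z ^ (4 * Ck + 1000))])
  have hT' := pow_le_of_log (by omega) (by linarith) hT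
  obtain ⟨s0, s1, s2, s3, s4, -⟩ := sides hW1 hT' hQ
  have ρ0p := (exp_pos _).trans_le r0
  have r3 : ρ0 ≤ ρ' := (le_mul_of_one_le_left ρ0p.le (by linarith)).trans r1
  have EX : (Y ^ 4) ^ Ck ≤ exp X := by linarith
  have r4 : exp (-(2 * Y)) ≤ ρ0 / (Y ^ 4) ^ Ck := xd r0 EX (by linarith) (by linarith)
  have r5 : ρ0 / (Y ^ 4) ^ Ck ≤ 1 := (div_le_self ρ0p.le y1).trans (r3.trans r2)
  have r6 : (Y ^ 4) ^ Ck * (ρ0 / (Y ^ 4) ^ Ck) ≤ ρ0 := (mul_div_cancel₀ _ (by linarith)).le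
  have hZW : exp ((Z ^ 4) ^ Ck) ≤ W := (exp_le_exp.2 (by linarith)).trans hW
  have tW : ∀ {i j : ℕ}, i * W ≤ j → i * exp ((Z ^ 4) ^ Ck) ≤ j := fun h =>
    (mul_le_mul_of_nonneg_left hZW (by positivity)).trans (by exact_mod_cast h)
  have mm : ∀ {o : V Q n → ℝ} {i j : ℕ}, Mix o i j (exp (-Z ^ (4 * Ck + 10))) →
      Mix o i j (exp (-(Z ^ 4) ^ Ck)) := fun h =>
    mix_mono h le_rfl le_rfl (exp_le_exp.2 (neg_le_neg z1))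
  obtain ⟨x1', ξ, h⟩ := core (F := (X ^ 4) ^ c') (r := ⌊(X ^ 4) ^ c'⌋₊) (eqc_of hE hA hP) hP e0 e1' hX
    p2 p3 y1 y2 y3 z2 r4 hn hι hW hW1 hT' hQ hf sym hB δ0 hδ hR hK0 r0 r1 r2 hM hη kφ kφ0 ⟨a0, a3⟩
    ⟨b0, b3⟩ c3 hp1 hp hN1 hN he hν hg fun κ _ _ L c0 c1 c2 θ om2 om3 χ u v g k1 k2 k3 k4 k5 k6 k7 k8
      k9 k10 => hK (X ^ 4) (Y ^ 4) (Z ^ 4) Q n κ L c0 c1 c2 ρ0 ρ0 _ θ _ _ _ _ om2 om3 χ u v g
        ⟨by linarith, x4, y4, by linarith [exp_le_exp.2 x3]⟩ (hn.trans z3) k1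
        ((exp_le_exp.2 (by linarith)).trans r4) r5 r6 r6 (s0 4 (by omega)) (tW (div_step T W 3))
        (tW (div_step T W 2)) (tW s2)
        ((Nat.mul_le_mul_left 4 (Nat.div_le_self T W)).trans s4) k2 k3 k4 k5 k6 k7 (mm k8) (mm k9)
        (mm k10)
  have h1 := mul_le_mul a3 b3 (abs_nonneg _) (by norm_num)
  have h2 := mul_le_mul h1 c3 (abs_nonneg _) (by norm_num)
  have hq : (1000 : ℤ) < Q := by exact_mod_cast (show 1000 < Q by omega)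
  refine ⟨x1', 6 * a * b * c, _, ξ, _, _,
    int_ne _ (by simp [a0, b0, c0]) (by simp only [abs_mul]; norm_num; linarith),
    (Nat.floor_le x1).trans (by linarith), ?_, mul_le_of_le_one_left (exp_pos _).le r5,
    exp_le_one_iff.2 (by linarith), h⟩
  rw [div_mul_eq_mul_div, mul_div_assoc]
  exact mul_le_mul_of_nonneg_left (xd le_rfl EX (by linarith) (by linarith)) ρ0p.le

end

end Vale.Agent.P057Z.Gr
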